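import Crest.Agent.N76.II.A.Main
import Crest.Agent.N76.II.TIDefs

/-! # Row 76, part A (final interface): `TI2`, `TI3`, `TII` imply `SS` (helper14). -/

set_option autoImplicit false

open MeasureTheory Set Metric
open scoped RealInnerProductSpace

namespace Crest.Agent.N76.II.A

open Crest.Agent.N76.Red Crest.Agent.N76.G

theorem en_bound' (d : ℕ) (hd : 1 ≤ d) (hI : TI2 (d + 1)) (hI3 : TI3 (d + 1)) (hII : TII d) :
    ∃ c γ C : ℝ, 0 < γ ∧ γ ≤ c ∧ 0 ≤ C ∧ ∀ R : ℝ, 1 ≤ R → ∀ X : Finset (V (d + 1) × ℝ), Graph R X →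
      ∀ H : L2 (d + 1), Supp H → en X H ≤ C * R ^ (((d : ℝ) + 1) / (d + 2)) *
        (((X.card : ℝ) / R ^ (d + 1)) ^ c + R ^ (-γ)) * ‖H‖ ^ 2 := by
  obtain ⟨α₀, hα₀, hII⟩ := hII
  obtain ⟨θ₀, hθ₀, hI3⟩ := hI3
  set α : ℝ := min (α₀ / 8) (min (θ₀ / 2) (1 / 12)) with hα
  have hα0 : 0 < α := lt_min (by positivity) (lt_min (by positivity) (by positivity))
  have hα1 : 8 * α ≤ α₀ := by linarith [min_le_left (α₀ / 8) (min (θ₀ / 2) (1 / 12))]
  have hα2 : α ≤ θ₀ / 2 := (min_le_right _ _).trans (min_le_left _ _)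
  have hα3 : α ≤ 1 / 12 := (min_le_right _ _).trans (min_le_right _ _)
  obtain ⟨c, C₂, hc, hC₂, hII⟩ := hII (8 * α) (by positivity) hα1
  obtain ⟨δ₂, C₁₂, hδ₂, hC₁₂, hI₁⟩ := hI α hα0
  obtain ⟨δ₃, C₁₃, hδ₃, hC₁₃, hI₃⟩ := hI3 α hα0
  set δ : ℝ := min δ₂ δ₃ with hδ'
  have hδ : 0 < δ := lt_min hδ₂ hδ₃
  set C₁ : ℝ := max C₁₂ C₁₃ with hC₁'
  have hC₁ : 0 ≤ C₁ := le_max_of_le_left hC₁₂
  set a : ℝ := min α δ / 5 with ha
  have ha0 : 0 < a := by have := lt_min hα0 hδ; positivity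
  obtain ⟨δ₀, C₀, hδ₀, hC₀, hI₀⟩ := hI a ha0
  have ha1 : 5 * a ≤ α := by linarith [min_le_left α δ]
  have ha2 : 5 * a ≤ δ := by linarith [min_le_right α δ]
  set R₀ : ℝ := (20 * 21 ^ (d + 1) : ℝ) ^ a⁻¹ with hR₀
  have hK : (1 : ℝ) ≤ 20 * 21 ^ (d + 1) := by
    have : (1 : ℝ) ≤ 21 ^ (d + 1) := one_le_pow₀ (by norm_num)
    linarith
  have hR₀1 : 1 ≤ R₀ := Real.one_le_rpow hK (by positivity)
  set γ : ℝ := min (min δ₀ (δ / 2)) c with hγ
  have hγ0 : 0 < γ := lt_min (lt_min hδ₀ (by positivity)) hc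
  have hγ1 : γ ≤ δ₀ := (min_le_left _ _).trans (min_le_left _ _)
  have hγ2 : γ ≤ δ / 2 := (min_le_left _ _).trans (min_le_right _ _)
  have hγ3 : γ ≤ c := min_le_right _ _
  refine ⟨c, γ, (3 * R₀) ^ (d + 1) * R₀ ^ γ + (C₀ + 6 * C₁ + 3 * C₂), hγ0, hγ3, by positivity,
    fun R hR X hX H hH => ?_⟩
  have hR0 : 0 < R := by linarith
  set s : ℝ := ((d : ℝ) + 1) / (d + 2) with hs
  have hs' : (((d + 1 : ℕ) : ℝ)) / (((d + 1 : ℕ) : ℝ) + 1) = s := by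
    rw [hs]; push_cast; ring
  have hs1 : 1 ≤ R ^ s := Real.one_le_rpow hR (by positivity)
  set t : ℝ := ((X.card : ℝ) / R ^ (d + 1)) ^ c with ht
  have ht0 : 0 ≤ t := by positivity
  have hRγ : 0 < R ^ (-γ) := by positivity
  have hH0 : 0 ≤ ‖H‖ ^ 2 := by positivity
  rcases le_total R R₀ with hRR | hRR
  · refine (en_le_card X H).trans ?_
    gcongr
    have h1 : (X.card : ℝ) ≤ (3 * R₀) ^ (d + 1) := (graph_card hR hX).trans (by gcongr)
    have h2 : 1 ≤ R₀ ^ γ * R ^ (-γ) := by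
      rw [Real.rpow_neg hR0.le, ← div_eq_mul_inv, one_le_div (by positivity)]
      gcongr
    calc (X.card : ℝ) ≤ (3 * R₀) ^ (d + 1) * (R₀ ^ γ * R ^ (-γ)) :=
          h1.trans (le_mul_of_one_le_right (by positivity) h2)
      _ = ((3 * R₀) ^ (d + 1) * R₀ ^ γ) * 1 * R ^ (-γ) := by ring
      _ ≤ _ := by
          gcongr
          · have : 0 ≤ C₀ + 6 * C₁ + 3 * C₂ := by positivity
            linarith
          · linarith
  have hpow : ∀ (x : ℝ) (k : ℕ), (R ^ x) ^ k = R ^ (k * x) := fun x k => by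
    rw [← Real.rpow_natCast, ← Real.rpow_mul hR0.le, mul_comm]
  have hmono : ∀ {x y : ℝ}, x ≤ y → R ^ x ≤ R ^ y := fun h => Real.rpow_le_rpow_of_exponent_le hR h
  have hdiv : ∀ x : ℝ, R ^ (((d + 1 : ℕ) : ℝ) - x) = R ^ (d + 1) / R ^ x := fun x => by
    rw [Real.rpow_sub hR0, Real.rpow_natCast]
  have hoff : ∀ (x : ℝ) (X' : Finset (V (d + 1) × ℝ)) (H : L2 (d + 1)), Off R √R (R ^ x) X' H →
      ∀ (ν : V (d + 1)) (c y : ℝ), ‖ν‖ = 1 →
        R ^ (((d + 1 : ℕ) : ℝ) - x) ≤ ms X' id (fun _ => 1) (plank ν c y (R ^ x * √R)) →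
        ∀ᵐ ξ : V (d + 1), |⟪ν, ξ⟫ - c| ≤ R ^ x / √R → H ξ = 0 := by
    intro x X' H h ν c y hν hm
    rw [ms_eq, hdiv] at hm
    exact h (ν, c, y) hν hm
  have hcore := core (n := d + 1) (by omega) (R := R) (T := √R) (P := R ^ a) (Q := R ^ α)
    (ε₀ := C₀ * R ^ (s - δ₀)) (ε := C₁ * R ^ (s - δ))
    (Λ := C₂ * R ^ s * (t + R ^ (-c))) (Real.sq_sqrt hR0.le) ?_ ?_ ?_ (by positivity)
    (by positivity) hX ?_ ?_ ?_ ?_ H hH
  · refine hcore.trans ?_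
    gcongr
    have e1 : R ^ (s - δ₀) ≤ R ^ s * R ^ (-γ) := by
      rw [← Real.rpow_add hR0]; exact hmono (by linarith)
    have e2 : (R ^ a) ^ 2 * R ^ (s - δ) ≤ R ^ s * R ^ (-γ) := by
      rw [hpow, ← Real.rpow_add hR0, ← Real.rpow_add hR0]; exact hmono (by push_cast; linarith)
    have e3 : R ^ (-c) ≤ R ^ (-γ) := hmono (by linarith)
    have e4 : R ^ s * R ^ (-γ) ≤ R ^ s * (t + R ^ (-γ)) := by gcongr; linarith
    calc _ = C₀ * R ^ (s - δ₀) + 6 * C₁ * ((R ^ a) ^ 2 * R ^ (s - δ)) +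
          3 * C₂ * (R ^ s * (t + R ^ (-c))) := by ring
      _ ≤ C₀ * (R ^ s * (t + R ^ (-γ))) + 6 * C₁ * (R ^ s * (t + R ^ (-γ))) +
          3 * C₂ * (R ^ s * (t + R ^ (-γ))) := by
          gcongr C₀ * ?_ + 6 * C₁ * ?_ + 3 * C₂ * (R ^ s * (t + ?_))
          · exact e1.trans e4
          · exact e2.trans e4
      _ = (0 + (C₀ + 6 * C₁ + 3 * C₂)) * R ^ s * (t + R ^ (-γ)) := by ring
      _ ≤ _ := by gcongr; positivity
  · calc (20 : ℝ) * 21 ^ (d + 1) = R₀ ^ a := by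
          rw [hR₀, Real.rpow_inv_rpow (by positivity) ha0.ne']
      _ ≤ R ^ a := by gcongr
  · rw [hpow]; exact hmono (by push_cast; linarith)
  · rw [hpow, Real.sqrt_eq_rpow]; exact hmono (by push_cast; linarith)
  · intro X' hX' H hH h
    have := hI₀ R hR X' (Graph.mono hX hX') H hH (hoff a X' H h)
    rwa [En_eq, hs'] at this
  · intro X' hX' H hH h
    have := hI₁ R hR X' (Graph.mono hX hX') H hH (hoff α X' H h)
    rw [En_eq, hs'] at this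
    refine this.trans ?_
    gcongr ?_ * ?_ * _
    · exact le_max_left _ _
    · exact hmono (by linarith [min_le_left δ₂ δ₃])
  · intro X' hX' H hH G hG h
    have := hI₃ R hR X' (Graph.mono hX hX') H hH ((R ^ α) ^ 2)
      (one_le_pow₀ (Real.one_le_rpow hR hα0.le)) ?_ G ?_ h
    · rw [En_eq, hs'] at this
      refine this.trans ?_
      gcongr ?_ * ?_ * _
      · exact le_max_right _ _
      · exact hmono (by linarith [min_le_right δ₂ δ₃])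
    · rw [hpow]
      exact hmono (by push_cast; linarith)
    · rwa [Real.rpow_neg hR0.le, ← div_eq_mul_inv]
  · intro X' hX' ν c' Y hν hY hXY H hH h
    refine tii_rot (R := R) (N := X.card) (M := (R ^ α) ^ 8) ?_ X' (Graph.mono hX hX')
      (Finset.card_le_card hX') ν c' Y hν hY hXY H hH h
    intro X₁ h1 h2 c₀ Y₁ h3 h4 H₁ h5 h6
    rw [hpow] at h3 h4 h6
    push_cast at h3 h4 h6
    have := hII R hR X₁ h1 c₀ Y₁ h3 h4 H₁ h5 h6
    rw [En_eq] at this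
    refine this.trans ?_
    simp only [ht]
    gcongr

end Crest.Agent.N76.II.A

namespace Crest.Agent.N76.II

open Crest.Agent.N76.Red Crest.Agent.N76.G A

/-- **Part A.** -/
theorem ss_of' (d : ℕ) (hd : 1 ≤ d) (hI : TI2 (d + 1)) (hI3 : TI3 (d + 1)) (hII : TII d) :
    SS (d + 1) := by
  obtain ⟨c, γ, C, hγ, hγc, hC, h⟩ := en_bound' d hd hI hI3 hII
  have hn : (1 : ℝ) ≤ ((d + 1 : ℕ) : ℝ) := by exact_mod_cast Nat.le_add_left 1 d
  set c' : ℝ := γ / ((d + 1 : ℕ) : ℝ) with hc'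
  have hc'0 : 0 < c' := by positivity
  have hc'1 : c' ≤ c := (div_le_self hγ.le hn).trans hγc
  refine ⟨c', C * (((3 : ℝ) ^ (d + 1)) ^ (c - c') + 1) * Real.exp (2 * Real.pi), hc'0,
    fun R hR X hX1 hX2 g hg hs lam hlam hl => ?_⟩
  have hR0 : 0 < R := by linarith
  have hI : 0 ≤ ∫ ξ, ‖g ξ‖ ^ 2 := integral_nonneg fun ξ => by positivity
  rcases X.eq_empty_or_nonempty with rfl | hne
  · simp only [Finset.card_empty, Nat.cast_zero, mul_zero]; positivity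
  obtain ⟨H, h1, h2, h3⟩ := exists_ext_eq g hg hs
  have hH : Supp H := by
    filter_upwards [h1] with ξ h4 h5
    rw [h4, hs ξ h5, mul_zero]
  have h4 := h R hR X ⟨hX1, hX2⟩ H hH
  have h5 : lam ^ 2 * X.card ≤ en X H := by
    rw [mul_comm, ← nsmul_eq_mul, ← Finset.sum_const]
    exact Finset.sum_le_sum fun z hz => pow_le_pow_left₀ hlam (by rw [← h3]; exact hl z hz) 2
  set t : ℝ := (X.card : ℝ) / R ^ (d + 1) with ht
  have ht0 : 0 ≤ t := by positivity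
  have ht1 : t ≤ 3 ^ (d + 1) := by
    rw [ht, div_le_iff₀ (by positivity), ← mul_pow]; exact graph_card hR ⟨hX1, hX2⟩
  have ht2 : (R ^ (d + 1))⁻¹ ≤ t := by
    rw [ht, ← one_div]; gcongr; exact_mod_cast hne.card_pos
  have h6 : t ^ c ≤ ((3 : ℝ) ^ (d + 1)) ^ (c - c') * t ^ c' := by
    have hd : 0 ≤ c - c' := by linarith
    calc t ^ c = t ^ ((c - c') + c') := by congr 1; ring
      _ = _ := Real.rpow_add_of_nonneg ht0 hd hc'0.le
      _ ≤ _ := by gcongr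
  have h7 : R ^ (-γ) ≤ t ^ c' := by
    calc R ^ (-γ) = ((R ^ (d + 1))⁻¹) ^ c' := by
          rw [← Real.rpow_natCast, ← Real.rpow_neg hR0.le, ← Real.rpow_mul hR0.le, hc']
          congr 1; field_simp
      _ ≤ _ := by gcongr
  have hs' : (((d + 1 : ℕ) : ℝ)) / (((d + 1 : ℕ) : ℝ) + 1) = ((d : ℝ) + 1) / (d + 2) := by
    push_cast; ring
  rw [hs']
  refine h5.trans (h4.trans ?_)
  calc _ ≤ C * R ^ (((d : ℝ) + 1) / (d + 2)) *
        (((3 : ℝ) ^ (d + 1)) ^ (c - c') * t ^ c' + t ^ c') *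
        (Real.exp (2 * Real.pi) * ∫ ξ, ‖g ξ‖ ^ 2) := by gcongr
    _ = _ := by ring

end Crest.Agent.N76.II
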