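import Crest.Agent.N76.II.A.Planks
import Crest.Agent.N76.G.Gam
import Crest.Agent.N76.G.Iso

/-! # Row 76, part A: decomposition along dense planks (helper14). -/

set_option autoImplicit false

open MeasureTheory Set Metric
open scoped RealInnerProductSpace

namespace Crest.Agent.N76.II.A

open Crest.Agent.N76.Red Crest.Agent.N76.G

variable {n : ℕ}

/-- unweighted energy -/
noncomputable def en (X : Finset (V n × ℝ)) (H : L2 n) : ℝ := ∑ z ∈ X, ‖inner ℂ (pt z) H‖ ^ 2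

theorem En_eq (X : Finset (V n × ℝ)) (H : L2 n) :
    En X id (fun _ => 1) (fun _ => H) = en X H := by simp [En, en]

open Classical in
/-- the points of `X` in a set -/
noncomputable def cut (X : Finset (V n × ℝ)) (S : Set (V n × ℝ)) : Finset (V n × ℝ) :=
  X.filter fun z => z ∈ S

theorem ms_eq (X : Finset (V n × ℝ)) (S : Set (V n × ℝ)) :
    ms X id (fun _ => 1) S = (cut X S).card := by simp [ms, cut]

theorem mem_cut {X : Finset (V n × ℝ)} {S : Set (V n × ℝ)} {z : V n × ℝ} :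
    z ∈ cut X S ↔ z ∈ X ∧ z ∈ S := by simp [cut]

theorem cut_subset (X : Finset (V n × ℝ)) (S : Set (V n × ℝ)) : cut X S ⊆ X :=
  fun _ hz => (mem_cut.1 hz).1

/-- supported in the unit ball -/
def Supp (H : L2 n) : Prop := ∀ᵐ ξ : V n, 1 < ‖ξ‖ → H ξ = 0

open Classical in
/-- restriction to a set -/
noncomputable def res (S : Set (V n)) (H : L2 n) : L2 n :=
  if h : MeasurableSet S then ((Lp.memLp H).indicator h).toLp _ else 0

theorem res_ae {S : Set (V n)} (hS : MeasurableSet S) (H : L2 n) :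
    res S H =ᵐ[volume] S.indicator H := by
  rw [res, dif_pos hS]; exact MemLp.coeFn_toLp _

theorem norm_res_sq {S : Set (V n)} (hS : MeasurableSet S) (H : L2 n) :
    ‖res S H‖ ^ 2 = ∫ ξ in S, ‖H ξ‖ ^ 2 := by
  rw [← Iso.integral_norm_sq_L2, ← integral_indicator hS]
  refine integral_congr_ae ?_
  filter_upwards [res_ae hS H] with ξ h
  rw [h]; by_cases hξ : ξ ∈ S <;> simp [hξ]

theorem norm_res_sq_le {S : Set (V n)} (hS : MeasurableSet S) (H : L2 n) :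
    ‖res S H‖ ^ 2 ≤ ‖H‖ ^ 2 := by
  rw [norm_res_sq hS, ← Iso.integral_norm_sq_L2]
  exact setIntegral_le_integral (Iso.integrable_norm_sq_L2 H)
    (Filter.Eventually.of_forall fun _ => by positivity)

theorem sum_norm_res_sq_le {ι : Type*} (s : Finset ι) (S : ι → Set (V n))
    (hS : ∀ i, MeasurableSet (S i)) (hd : (s : Set ι).PairwiseDisjoint S) (H : L2 n) :
    ∑ i ∈ s, ‖res (S i) H‖ ^ 2 ≤ ‖H‖ ^ 2 := by
  simp only [norm_res_sq (hS _)]
  rw [← integral_biUnion_finset s (fun i _ => hS i) hd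
    fun i _ => (Iso.integrable_norm_sq_L2 H).integrableOn, ← Iso.integral_norm_sq_L2]
  exact setIntegral_le_integral (Iso.integrable_norm_sq_L2 H)
    (Filter.Eventually.of_forall fun _ => by positivity)

theorem Supp.res {H : L2 n} (hH : Supp H) {S : Set (V n)} (hS : MeasurableSet S) :
    Supp (res S H) := by
  filter_upwards [hH, res_ae hS H] with ξ h1 h2 h3
  rw [h2]; by_cases hξ : ξ ∈ S <;> simp [hξ, h1 h3]

theorem res_ne_zero {H : L2 n} (hH : Supp H) {S : Set (V n)} (hS : MeasurableSet S) :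
    ∀ᵐ ξ : V n, res S H ξ ≠ 0 → ξ ∈ S ∧ ‖ξ‖ ≤ 1 := by
  filter_upwards [hH.res hS, res_ae hS H] with ξ h1 h2 h3
  refine ⟨?_, not_lt.1 fun h => h3 (h1 h)⟩
  by_contra hξ
  exact h3 (by rw [h2, indicator_of_notMem hξ])

theorem res_split {A B : Set (V n)} (hA : MeasurableSet A) (hB : MeasurableSet B) (H : L2 n) :
    H = res Aᶜ H + res (A ∩ B) H + res (A \ B) H := by
  refine Lp.ext ?_
  filter_upwards [Lp.coeFn_add (res Aᶜ H + res (A ∩ B) H) (res (A \ B) H),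
    Lp.coeFn_add (res Aᶜ H) (res (A ∩ B) H), res_ae hA.compl H, res_ae (hA.inter hB) H,
    res_ae (hA.diff hB) H] with ξ h1 h2 h3 h4 h5
  rw [h1, Pi.add_apply, h2, Pi.add_apply, h3, h4, h5]
  by_cases ha : ξ ∈ A <;> by_cases hb : ξ ∈ B <;> simp [ha, hb]

theorem norm_add3_sq_le (a b c : ℂ) : ‖a + b + c‖ ^ 2 ≤ 3 * (‖a‖ ^ 2 + ‖b‖ ^ 2 + ‖c‖ ^ 2) := by
  have h : ‖a + b + c‖ ≤ ‖a‖ + ‖b‖ + ‖c‖ := norm_add₃_le
  refine (pow_le_pow_left₀ (norm_nonneg _) h 2).trans ?_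
  nlinarith [sq_nonneg (‖a‖ - ‖b‖), sq_nonneg (‖a‖ - ‖c‖), sq_nonneg (‖b‖ - ‖c‖)]

/-- selection of the dense planks -/
theorem exists_planks {R T P : ℝ} (hT : T ^ 2 = R) (hT1 : 1 ≤ T) (hP : 20 * 21 ^ n ≤ P)
    (hPT : P ^ 4 ≤ T) {X : Finset (V n × ℝ)} (hX : Graph R X) :
    ∃ F : Finset (Pm n), (F.card : ℝ) ≤ P ^ 2 ∧ (∀ p ∈ F, ‖p.1‖ = 1 ∧ |p.2.1| ≤ 2) ∧
      ∀ p : Pm n, ‖p.1‖ = 1 → |p.2.1| ≤ 2 → R ^ n / P ≤ (cut X (pk p (P * T))).card →
        ∃ q ∈ F, ∀ z ∈ X, z ∈ pk p (P * T) → z ∈ pk q (P ^ 5 * T) := by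
  classical
  have hR : 1 ≤ R := by nlinarith
  have h21 : (1 : ℝ) ≤ 21 ^ n := one_le_pow₀ (by norm_num)
  have hP1 : 20 ≤ P := by linarith
  have hP0 : 0 < P := by linarith
  have h3 : (3 : ℝ) ^ n ≤ 21 ^ n := by gcongr; norm_num
  have h31 : (1 : ℝ) ≤ 3 ^ n := one_le_pow₀ (by norm_num)
  set N : ℝ := (3 * R) ^ n with hN
  have hd : 0 < R ^ n / P := by positivity
  have hm : (R ^ n / P) ^ 2 / (4 * N) = R ^ n / (4 * 3 ^ n * P ^ 2) := by
    rw [hN, mul_pow]; field_simp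
  have hJ : ∀ F : Finset (Pm n),
      (∀ p ∈ F, ‖p.1‖ = 1 ∧ |p.2.1| ≤ 2 ∧ R ^ n / P ≤ (cut X (pk p (P * T))).card) →
      (∀ p ∈ F, ∀ q ∈ F, p ≠ q → ((cut X (pk p (P * T)) ∩ cut X (pk q (P * T))).card : ℝ) ≤
        (R ^ n / P) ^ 2 / (4 * N)) → (F.card : ℝ) ≤ P ^ 2 := by
    intro F h1 h2
    refine (card_family_le X F (fun p => cut X (pk p (P * T))) (fun p _ => cut_subset _ _)
      (graph_card hR hX) hd (fun p hp => (h1 p hp).2.2) h2).trans ?_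
    have : 2 * (3 * R) ^ n / (R ^ n / P) = 2 * 3 ^ n * P := by rw [mul_pow]; field_simp
    rw [this]; nlinarith
  obtain ⟨F, h1, h2, h4⟩ := exists_maximal_family
    (fun p : Pm n => ‖p.1‖ = 1 ∧ |p.2.1| ≤ 2 ∧ R ^ n / P ≤ (cut X (pk p (P * T))).card)
    (fun p q => ((cut X (pk p (P * T)) ∩ cut X (pk q (P * T))).card : ℝ) ≤
      (R ^ n / P) ^ 2 / (4 * N))
    (fun p q h => by rwa [Finset.inter_comm]) (fun p hp h => by
      rw [Finset.inter_self, hm] at h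
      have : R ^ n / (4 * 3 ^ n * P ^ 2) < R ^ n / P := by
        apply div_lt_div_of_pos_left (by positivity) hP0
        nlinarith
      linarith [hp.2.2]) _ hJ
  refine ⟨F, hJ F h1 h2, fun p hp => ⟨(h1 p hp).1, (h1 p hp).2.1⟩, fun p hp hc hden => ?_⟩
  obtain ⟨q, hq, hnf⟩ := h4 p ⟨hp, hc, hden⟩
  rw [not_le, hm] at hnf
  set Y := cut X (pk p (P * T)) ∩ cut X (pk q (P * T)) with hY
  have hYX : Y ⊆ X := Finset.inter_subset_left.trans (cut_subset _ _)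
  have hYm : ∀ z ∈ Y, z ∈ pk p (P * T) ∧ z ∈ pk q (P * T) := fun z hz =>
    ⟨(mem_cut.1 (Finset.mem_inter.1 hz).1).2, (mem_cut.1 (Finset.mem_inter.1 hz).2).2⟩
  have hrel : rel (2 * (P ^ 4 / T)) p q := by
    refine two_planks hR (by positivity) (div_le_one_of_le₀ hPT (by positivity))
      (by nlinarith) (Graph.mono hX hYX) hp (h1 q hq).1 hc (h1 q hq).2.1 hYm (lt_of_le_of_lt ?_ hnf)
    have e : (7 : ℝ) ^ n * R ^ n * (5 * (P * T) / (P ^ 4 / T) / R) =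
        R ^ n / (4 * 3 ^ n * P ^ 2) * (20 * 21 ^ n / P) := by
      rw [show (21 : ℝ) = 3 * 7 by norm_num, mul_pow, ← hT]; field_simp; norm_num
    rw [e]
    exact mul_le_of_le_one_right (by positivity) (div_le_one_of_le₀ hP hP0.le)
  obtain ⟨z₀, hz₀⟩ : Y.Nonempty := by
    rw [← Finset.card_pos]
    have : (0 : ℝ) < Y.card := lt_of_le_of_lt (by positivity) hnf
    exact_mod_cast this
  refine ⟨q, hq, fun z hz hzp => pk_mono q ?_
    (pk_of_rel hrel (hX.1 z hz) (hX.1 z₀ (hYX hz₀)) hzp (hYm z₀ hz₀).1 (hYm z₀ hz₀).2)⟩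
  have e : 3 * (P * T) + 6 * (2 * (P ^ 4 / T)) * R = (3 * P + 12 * P ^ 4) * T := by
    rw [← hT]; field_simp; ring
  rw [e]
  gcongr
  have : P ≤ P ^ 4 := le_self_pow₀ (by linarith) (by norm_num)
  have h5 : P ^ 5 = P * P ^ 4 := by ring
  nlinarith [pow_pos hP0 4]

/-- the points shared by two transversal slabs lie in few small balls -/
theorem exists_shared_net {th w s : ℝ} (hth : 0 < th) (hw : 4 * w ≤ th) (hs : 3 ≤ s)
    (hw1 : w * s ≤ 1) (hw2 : 12 * w * s ≤ th) (F : Finset (Pm n)) (h1 : ∀ p ∈ F, ‖p.1‖ = 1) :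
    ∃ G : Finset (V n), s ^ 2 * G.card ≤ (F.card : ℝ) ^ 2 * (9 * 11 ^ n * s ^ n) ∧
      ∀ ξ : V n, ‖ξ‖ ≤ 1 → ∀ p ∈ F, ∀ q ∈ F, ¬ rel th p q →
        ξ ∈ sl p w → ξ ∈ sl q w → ∃ c ∈ G, ‖ξ - c‖ ≤ 1 / s := by
  classical
  have hs0 : 0 < s := by linarith
  obtain ⟨Y, hY1, hY2, hY3⟩ := exists_net {x : V n | ‖x‖ ≤ s ∧ ∃ p ∈ F, ∃ q ∈ F,
    ¬ rel th p q ∧ s⁻¹ • x ∈ sl p w ∧ s⁻¹ • x ∈ sl q w} hs0.le fun x hx => hx.1
  refine ⟨Y.image fun y => s⁻¹ • y, ?_, fun ξ hξ p hp q hq hpq h2 h3 => ?_⟩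
  · set Z : Pm n × Pm n → Finset (V n) := fun a =>
      Y.filter fun x => ¬ rel th a.1 a.2 ∧ s⁻¹ • x ∈ sl a.1 w ∧ s⁻¹ • x ∈ sl a.2 w with hZ
    have h2 : Y ⊆ (F ×ˢ F).biUnion Z := by
      intro x hx
      obtain ⟨-, p, hp, q, hq, h⟩ := hY1 x hx
      exact Finset.mem_biUnion.2 ⟨(p, q), Finset.mem_product.2 ⟨hp, hq⟩,
        Finset.mem_filter.2 ⟨hx, h⟩⟩
    have h3 : ((Y.image fun y => s⁻¹ • y).card : ℝ) ≤ ∑ a ∈ F ×ˢ F, ((Z a).card : ℝ) := by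
      exact_mod_cast Finset.card_image_le.trans
        ((Finset.card_le_card h2).trans Finset.card_biUnion_le)
    have h4 : ∀ a ∈ F ×ˢ F, s ^ 2 * ((Z a).card : ℝ) ≤ 9 * 11 ^ n * s ^ n := by
      intro a ha
      by_cases hr : rel th a.1 a.2
      · have : Z a = ∅ := Finset.filter_false_of_mem fun x _ h => h.1 hr
        rw [this]; simp only [Finset.card_empty, Nat.cast_zero, mul_zero]; positivity
      · exact two_slabs (h1 _ (Finset.mem_product.1 ha).1) (h1 _ (Finset.mem_product.1 ha).2)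
          hth hw hs hw1 hw2 hr _ (hY2.mono (Finset.filter_subset _ _)) fun x hx =>
            ⟨(hY1 x (Finset.mem_filter.1 hx).1).1, (Finset.mem_filter.1 hx).2.2⟩
    calc _ ≤ s ^ 2 * ∑ a ∈ F ×ˢ F, ((Z a).card : ℝ) := by gcongr
      _ ≤ ∑ _a ∈ F ×ˢ F, (9 * 11 ^ n * s ^ n : ℝ) := by
          rw [Finset.mul_sum]; exact Finset.sum_le_sum h4
      _ = _ := by rw [Finset.sum_const, Finset.card_product, nsmul_eq_mul]; push_cast; ring
  · have e : s⁻¹ • s • ξ = ξ := by rw [smul_smul, inv_mul_cancel₀ hs0.ne', one_smul]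
    obtain ⟨y, hy, h⟩ := hY3 (s • ξ) ⟨by
      rw [norm_smul, Real.norm_of_nonneg hs0.le]; exact mul_le_of_le_one_right hs0.le hξ,
      p, hp, q, hq, hpq, by rwa [e], by rwa [e]⟩
    refine ⟨_, Finset.mem_image_of_mem _ hy, ?_⟩
    rw [← e, ← smul_sub, norm_smul, Real.norm_of_nonneg (inv_pos.2 hs0).le, one_div]
    exact mul_le_of_le_one_right (inv_pos.2 hs0).le h

/-- hypothesis (ii) of `TI` with parameter `P = R^α` -/
def Off (R T P : ℝ) (X : Finset (V n × ℝ)) (H : L2 n) : Prop :=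
  ∀ p : Pm n, ‖p.1‖ = 1 → R ^ n / P ≤ (cut X (pk p (P * T))).card →
    ∀ᵐ ξ : V n, ξ ∈ sl p (P / T) → H ξ = 0

theorem ae_zero_of_large {H : L2 n} (hH : Supp H) {p : Pm n} (hp : ‖p.1‖ = 1) (hc : 2 < |p.2.1|)
    {w : ℝ} (hw : w ≤ 1) : ∀ᵐ ξ : V n, ξ ∈ sl p w → H ξ = 0 := by
  filter_upwards [hH] with ξ h1 h2
  refine h1 ?_
  have h3 : |⟪p.1, ξ⟫| ≤ ‖ξ‖ := by simpa [hp] using abs_real_inner_le_norm p.1 ξ
  have h4 : |⟪p.1, ξ⟫ - p.2.1| ≤ w := h2
  have h5 := abs_sub_abs_le_abs_sub p.2.1 ⟪p.1, ξ⟫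
  rw [abs_sub_comm] at h5
  linarith

theorem core (hn : 2 ≤ n) {R T P Q ε₀ ε Λ : ℝ} (hT : T ^ 2 = R) (hP : 20 * 21 ^ n ≤ P)
    (hPQ : P ^ 5 ≤ Q) (hQT : Q ^ 6 ≤ T) (hε : 0 ≤ ε) (hΛ : 0 ≤ Λ)
    {X : Finset (V n × ℝ)} (hX : Graph R X)
    (H0 : ∀ X' ⊆ X, ∀ H, Supp H → Off R T P X' H → en X' H ≤ ε₀ * ‖H‖ ^ 2)
    (H1 : ∀ X' ⊆ X, ∀ H, Supp H → Off R T Q X' H → en X' H ≤ ε * ‖H‖ ^ 2)
    (H2 : ∀ X' ⊆ X, ∀ H, Supp H → ∀ G : Finset (V n), (G.card : ℝ) ≤ (Q ^ 2) ^ (n - 1) / Q →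
      (∀ᵐ ξ : V n, H ξ ≠ 0 → ∃ c ∈ G, ‖ξ - c‖ ≤ 1 / Q ^ 2) → en X' H ≤ ε * ‖H‖ ^ 2)
    (H3 : ∀ X' ⊆ X, ∀ (ν : V n) (c : ℝ) (Y : Finset ℝ), ‖ν‖ = 1 → (Y.card : ℝ) ≤ Q ^ 8 →
      (∀ z ∈ X', ∃ y ∈ Y, |⟪ν, z.1⟫ + 2 * c * z.2 - y| ≤ Q ^ 8 * T) → ∀ H, Supp H →
      (∀ᵐ ξ : V n, Q ^ 8 / T < |⟪ν, ξ⟫ - c| → H ξ = 0) → en X' H ≤ Λ * ‖H‖ ^ 2)
    (H : L2 n) (hH : Supp H) : en X H ≤ (ε₀ + 6 * P ^ 2 * ε + 3 * Λ) * ‖H‖ ^ 2 := by
  classical
  have h21 : (1 : ℝ) ≤ 21 ^ n := one_le_pow₀ (by norm_num)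
  have hP1 : 20 ≤ P := by linarith
  have hP0 : 0 < P := by linarith
  have hP2 : P ^ 2 ≤ P ^ 5 := pow_le_pow_right₀ (by linarith) (by norm_num)
  have hPQ1 : P ^ 2 ≤ Q := hP2.trans hPQ
  have hQ1 : 400 ≤ Q := by nlinarith
  have hQ0 : 0 < Q := by linarith
  have hQp : ∀ {a b : ℕ}, a ≤ b → Q ^ a ≤ Q ^ b := fun h => pow_le_pow_right₀ (by linarith) h
  have hQT' : ∀ {a : ℕ}, a ≤ 6 → Q ^ a ≤ T := fun h => (hQp h).trans hQT
  have hT1 : 1 ≤ T := by simpa using hQT' (a := 0) (by norm_num)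
  have hT0 : 0 < T := by linarith
  have hR : 1 ≤ R := by nlinarith
  have hQT1 : Q ≤ T := by simpa using hQT' (a := 1) (by norm_num)
  obtain ⟨F, hFc, hF, hFd⟩ := exists_planks hT hT1 hP
    (((pow_le_pow_right₀ (by linarith) (by norm_num)).trans hPQ).trans hQT1) hX
  set w : ℝ := 5 * Q ^ 3 / T with hw
  set th : ℝ := Q ^ 6 / T with hth
  have hth0 : 0 < th := by positivity
  obtain ⟨f, hf1, hf2⟩ := exists_clusters F rel rel_refl rel_symm rel_tri rel_mono hth0.le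
  have hFth : F.card * th ≤ Q ^ 7 / T := by
    calc F.card * th ≤ Q * th := by gcongr; exact hFc.trans hPQ1
      _ = _ := by rw [hth]; ring
  obtain ⟨G, hGc, hG⟩ := exists_shared_net (th := th) (w := w) (s := Q ^ 2) hth0
    (by rw [hw, hth, ← mul_div_assoc]; gcongr; nlinarith [pow_pos hQ0 3, hQp (show 1 ≤ 3 by norm_num)])
    (by nlinarith)
    (by rw [hw, div_mul_eq_mul_div, div_le_one hT0]; nlinarith [pow_pos hQ0 5])
    (by rw [hw, hth, ← mul_div_assoc, div_mul_eq_mul_div]; gcongr; nlinarith [pow_pos hQ0 5])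
    F fun p hp => (hF p hp).1
  have hGc' : (G.card : ℝ) ≤ (Q ^ 2) ^ (n - 1) / Q := by
    obtain ⟨m, rfl⟩ : ∃ m, n = m + 2 := ⟨n - 2, by omega⟩
    have h11 : (9 : ℝ) * 11 ^ (m + 2) ≤ P :=
      le_trans (by gcongr <;> norm_num) hP
    have h1 : (F.card : ℝ) ^ 2 * (9 * 11 ^ (m + 2)) ≤ Q := by
      calc _ ≤ (P ^ 2) ^ 2 * P := by gcongr
        _ = P ^ 5 := by ring
        _ ≤ Q := hPQ
    rw [show m + 2 - 1 = m + 1 by omega, le_div_iff₀ hQ0]
    have h2 : (Q ^ 2) ^ 2 * G.card ≤ Q * (Q ^ 2) ^ (m + 2) := by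
      refine hGc.trans ?_
      rw [← mul_assoc]; gcongr
    have h3 : (Q ^ 2) ^ 2 * (G.card * Q) ≤ (Q ^ 2) ^ 2 * (Q ^ 2) ^ (m + 1) := by
      calc _ = Q * ((Q ^ 2) ^ 2 * G.card) := by ring
        _ ≤ Q * (Q * (Q ^ 2) ^ (m + 2)) := by gcongr
        _ = _ := by ring
    exact le_of_mul_le_mul_left h3 (by positivity)
  -- the points on and off the thick planks
  set On : V n × ℝ → Prop := fun z => ∃ q ∈ F, z ∈ pk q (Q * T) with hOn
  have hoff : en (X.filter fun z => ¬ On z) H ≤ ε₀ * ‖H‖ ^ 2 := by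
    refine H0 _ (Finset.filter_subset _ _) H hH fun p hp hden => ?_
    rcases le_or_gt |p.2.1| 2 with hc | hc
    · exfalso
      have hsub : cut (X.filter fun z => ¬ On z) (pk p (P * T)) ⊆ cut X (pk p (P * T)) :=
        fun z hz => mem_cut.2 ⟨(Finset.mem_filter.1 (mem_cut.1 hz).1).1, (mem_cut.1 hz).2⟩
      obtain ⟨q, hq, h⟩ := hFd p hp hc (hden.trans (by exact_mod_cast Finset.card_le_card hsub))
      obtain ⟨z, hz⟩ : (cut (X.filter fun z => ¬ On z) (pk p (P * T))).Nonempty := by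
        rw [← Finset.card_pos]
        have : (0 : ℝ) < _ := lt_of_lt_of_le (by positivity) hden
        exact_mod_cast this
      have h1 := Finset.mem_filter.1 (mem_cut.1 hz).1
      exact h1.2 ⟨q, hq, pk_mono q (by gcongr) (h z h1.1 (mem_cut.1 hz).2)⟩
    · exact ae_zero_of_large hH hp hc (div_le_one_of_le₀ (by nlinarith) hT0.le)
  set Xon := X.filter On with hXon
  have hj : ∀ z, ∃ q, z ∈ Xon → q ∈ F ∧ z ∈ pk q (Q * T) := fun z => by
    by_cases h : z ∈ Xon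
    · obtain ⟨q, hq⟩ := (Finset.mem_filter.1 h).2
      exact ⟨q, fun _ => hq⟩
    · exact ⟨(0, 0, 0), fun h' => absurd h' h⟩
  choose j hj using hj
  set A : Pm n → Set (V n) := fun k => ⋃ q ∈ F.filter fun q => f q = k, sl q w with hA
  set B : Pm n → Set (V n) := fun k => ⋃ q ∈ F.filter fun q => f q ≠ k, sl q w with hB
  have mA : ∀ k, MeasurableSet (A k) := fun k =>
    Finset.measurableSet_biUnion _ fun q _ => measurableSet_sl q w
  have mB : ∀ k, MeasurableSet (B k) := fun k =>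
    Finset.measurableSet_biUnion _ fun q _ => measurableSet_sl q w
  have hXj : ∀ q, Xon.filter (fun z => j z = q) ⊆ X := fun q =>
    (Finset.filter_subset _ _).trans (Finset.filter_subset _ _)
  have b1 : ∀ q ∈ F, en (Xon.filter fun z => j z = q) (res (A (f q))ᶜ H) ≤ ε * ‖H‖ ^ 2 := by
    intro q hq
    refine (H1 _ (hXj q) _ (hH.res (mA _).compl) fun p hp hden => ?_).trans
      (mul_le_mul_of_nonneg_left (norm_res_sq_le (mA _).compl H) hε)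
    rcases le_or_gt |p.2.1| 2 with hc | hc
    · have hrel : rel (2 * (Q ^ 3 / T)) p q := by
        refine two_planks (u := Q * T) hR (by positivity)
          (div_le_one_of_le₀ (hQT' (by norm_num)) hT0.le) (by nlinarith)
          (Graph.mono hX ((cut_subset _ _).trans (hXj q))) hp (hF q hq).1 hc (hF q hq).2
          (fun z hz => ⟨(mem_cut.1 hz).2, ?_⟩) (lt_of_lt_of_le ?_ hden)
        · have h1 := Finset.mem_filter.1 (mem_cut.1 hz).1
          rw [← h1.2]; exact (hj z h1.1).2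
        · have e : (7 : ℝ) ^ n * R ^ n * (5 * (Q * T) / (Q ^ 3 / T) / R) =
              R ^ n / Q * (5 * 7 ^ n / Q) := by rw [← hT]; field_simp
          rw [e]
          refine mul_lt_of_lt_one_right (by positivity) ((div_lt_one hQ0).2 ?_)
          have : (7 : ℝ) ^ n ≤ 21 ^ n := by gcongr; norm_num
          nlinarith
      filter_upwards [res_ne_zero hH (mA (f q)).compl] with ξ h1 h2
      by_contra h3
      refine (h1 h3).1 (mem_iUnion₂.2 ⟨q, Finset.mem_filter.2 ⟨hq, rfl⟩, ?_⟩)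
      refine sl_mono q ?_ (sl_of_rel hrel (h1 h3).2 h2)
      have : Q ≤ Q ^ 3 := by simpa using hQp (show 1 ≤ 3 by norm_num)
      rw [hw, show Q / T + 2 * (2 * (Q ^ 3 / T)) = (Q + 4 * Q ^ 3) / T by ring]
      gcongr; linarith
    · exact ae_zero_of_large (hH.res (mA _).compl) hp hc (div_le_one_of_le₀ hQT1 hT0.le)
  have b2 : ∀ q ∈ F, en (Xon.filter fun z => j z = q) (res (A (f q) ∩ B (f q)) H) ≤
      ε * ‖H‖ ^ 2 := by
    intro q _
    refine (H2 _ (hXj q) _ (hH.res ((mA _).inter (mB _))) G hGc' ?_).trans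
      (mul_le_mul_of_nonneg_left (norm_res_sq_le ((mA _).inter (mB _)) H) hε)
    filter_upwards [res_ne_zero hH ((mA (f q)).inter (mB (f q)))] with ξ h1 h2
    obtain ⟨⟨ha, hb⟩, hξ⟩ := h1 h2
    obtain ⟨a, ha1, ha2⟩ := mem_iUnion₂.1 ha
    obtain ⟨b, hb1, hb2⟩ := mem_iUnion₂.1 hb
    have ha' := Finset.mem_filter.1 ha1
    have hb' := Finset.mem_filter.1 hb1
    exact hG ξ hξ a ha'.1 b hb'.1 (fun h => hb'.2 ((hf2 a ha'.1 b hb'.1 h).symm.trans ha'.2))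
      ha2 hb2
  have b3 : ∀ k ∈ F, en (Xon.filter fun z => f (j z) = k) (res (A k \ B k) H) ≤
      Λ * ‖res (A k \ B k) H‖ ^ 2 := by
    intro k hk
    refine H3 _ ((Finset.filter_subset _ _).trans (Finset.filter_subset _ _)) k.1 k.2.1
      (F.image (fun q => q.2.2) ∪ F.image fun q => -q.2.2) (hF k hk).1 ?_ (fun z hz => ?_) _
      (hH.res ((mA _).diff (mB _))) ?_
    · have h1 : (F.image (fun q => q.2.2) ∪ F.image fun q => -q.2.2).card ≤ F.card + F.card :=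
        (Finset.card_union_le _ _).trans (add_le_add Finset.card_image_le Finset.card_image_le)
      have h2 : (((F.image (fun q => q.2.2) ∪ F.image fun q => -q.2.2).card : ℕ) : ℝ) ≤
          F.card + F.card := by exact_mod_cast h1
      have h3 : Q ^ 2 ≤ Q ^ 8 := hQp (by norm_num)
      nlinarith
    · have h1 := Finset.mem_filter.1 hz
      have h2 := hj z h1.1
      have h3 := (hf1 _ h2.1).2
      rw [h1.2] at h3
      obtain ⟨σ, hσ, h4⟩ := near_of_rel h3 (hX.1 z (Finset.mem_filter.1 h1.1).1) h2.2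
      refine ⟨σ * (j z).2.2, ?_, h4.trans ?_⟩
      · rcases hσ with rfl | rfl
        · exact Finset.mem_union_left _ (Finset.mem_image.2 ⟨_, h2.1, by ring⟩)
        · exact Finset.mem_union_right _ (Finset.mem_image.2 ⟨_, h2.1, by ring⟩)
      · have h5 : 3 * (F.card * th) * R ≤ 3 * (Q ^ 7 / T) * R := by gcongr
        have h6 : 3 * (Q ^ 7 / T) * R = 3 * Q ^ 7 * T := by rw [← hT]; field_simp
        have h7 : Q ≤ Q ^ 7 := by simpa using hQp (show 1 ≤ 7 by norm_num)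
        have h8 : Q + 3 * Q ^ 7 ≤ Q ^ 8 := by nlinarith [pow_pos hQ0 7]
        nlinarith
    · filter_upwards [res_ne_zero hH ((mA k).diff (mB k))] with ξ h1 h2
      by_contra h3
      obtain ⟨⟨ha, -⟩, hξ⟩ := h1 h3
      obtain ⟨a, ha1, ha2⟩ := mem_iUnion₂.1 ha
      have ha' := Finset.mem_filter.1 ha1
      have h4 := (hf1 _ ha'.1).2
      rw [ha'.2] at h4
      have h5 : |⟪k.1, ξ⟫ - k.2.1| ≤ w + 2 * (F.card * th) := sl_of_rel h4 hξ ha2
      have h6 : w + 2 * (Q ^ 7 / T) ≤ Q ^ 8 / T := by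
        rw [hw, ← mul_div_assoc, ← add_div]
        gcongr
        have : Q ^ 3 ≤ Q ^ 7 := hQp (by norm_num)
        nlinarith [pow_pos hQ0 7]
      linarith
  have hdisj : (F : Set (Pm n)).PairwiseDisjoint fun k => A k \ B k := by
    intro k _ k' _ hne
    refine Set.disjoint_left.2 fun ξ h1 h2 => h1.2 ?_
    obtain ⟨a, ha1, ha2⟩ := mem_iUnion₂.1 h2.1
    have ha' := Finset.mem_filter.1 ha1
    exact mem_iUnion₂.2 ⟨a, Finset.mem_filter.2 ⟨ha'.1, by rw [ha'.2]; exact hne.symm⟩, ha2⟩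
  have hjF : ∀ z ∈ Xon, j z ∈ F := fun z hz => (hj z hz).1
  have s1 : ∑ z ∈ Xon, ‖inner ℂ (pt z) (res (A (f (j z)))ᶜ H)‖ ^ 2 ≤ P ^ 2 * (ε * ‖H‖ ^ 2) := by
    rw [← Finset.sum_fiberwise_of_maps_to hjF]
    calc _ ≤ ∑ _q ∈ F, ε * ‖H‖ ^ 2 := Finset.sum_le_sum fun q hq => le_trans (le_of_eq
          (Finset.sum_congr rfl fun z hz => by rw [(Finset.mem_filter.1 hz).2])) (b1 q hq)
      _ ≤ _ := by rw [Finset.sum_const, nsmul_eq_mul]; gcongr
  have s2 : ∑ z ∈ Xon, ‖inner ℂ (pt z) (res (A (f (j z)) ∩ B (f (j z))) H)‖ ^ 2 ≤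
      P ^ 2 * (ε * ‖H‖ ^ 2) := by
    rw [← Finset.sum_fiberwise_of_maps_to hjF]
    calc _ ≤ ∑ _q ∈ F, ε * ‖H‖ ^ 2 := Finset.sum_le_sum fun q hq => le_trans (le_of_eq
          (Finset.sum_congr rfl fun z hz => by rw [(Finset.mem_filter.1 hz).2])) (b2 q hq)
      _ ≤ _ := by rw [Finset.sum_const, nsmul_eq_mul]; gcongr
  have s3 : ∑ z ∈ Xon, ‖inner ℂ (pt z) (res (A (f (j z)) \ B (f (j z))) H)‖ ^ 2 ≤
      Λ * ‖H‖ ^ 2 := by
    rw [← Finset.sum_fiberwise_of_maps_to (g := fun z => f (j z))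
      fun z hz => (hf1 _ (hjF z hz)).1]
    calc _ ≤ ∑ k ∈ F, Λ * ‖res (A k \ B k) H‖ ^ 2 :=
          Finset.sum_le_sum fun q hq => le_trans (le_of_eq
          (Finset.sum_congr rfl fun z hz => by rw [(Finset.mem_filter.1 hz).2])) (b3 q hq)
      _ ≤ _ := by
          rw [← Finset.mul_sum]
          gcongr
          exact sum_norm_res_sq_le F _ (fun k => (mA k).diff (mB k)) hdisj H
  have hon : en Xon H ≤ 3 * (P ^ 2 * (ε * ‖H‖ ^ 2) + P ^ 2 * (ε * ‖H‖ ^ 2) + Λ * ‖H‖ ^ 2) := by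
    refine le_trans ?_ (mul_le_mul_of_nonneg_left (add_le_add (add_le_add s1 s2) s3) (by norm_num))
    rw [← Finset.sum_add_distrib, ← Finset.sum_add_distrib, Finset.mul_sum]
    refine Finset.sum_le_sum fun z _ => ?_
    conv_lhs => rw [res_split (mA (f (j z))) (mB (f (j z))) H, inner_add_right, inner_add_right]
    exact norm_add3_sq_le _ _ _
  have : en X H = en Xon H + en (X.filter fun z => ¬ On z) H :=
    (Finset.sum_filter_add_sum_filter_not X On _).symm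
  rw [this]
  linarith

end Crest.Agent.N76.II.A
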