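import Crest.Agent.N76.Red.Pack

/-! # Row 76, part A: counting in slabs, nets, clustering, maximal families (helper14). -/

set_option autoImplicit false

open Set Metric
open scoped RealInnerProductSpace

namespace Crest.Agent.N76.II.A

open Crest.Agent.N76.Red

variable {n : ℕ}

/-- `1`-separated finite sets -/
def Sep (s : Finset (V n)) : Prop := ∀ c ∈ s, ∀ d ∈ s, c ≠ d → 1 ≤ ‖c - d‖

theorem Sep.mono {s t : Finset (V n)} (h : Sep t) (hst : s ⊆ t) : Sep s :=
  fun c hc d hd => h c (hst hc) d (hst hd)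

/-- separated points in an intersection of orthogonal slabs: translation trick -/
theorem card_slabs {ι : Type*} [Fintype ι] {e : ι → V n} (he : Orthonormal ℝ e) (s : Finset (V n))
    (hs : Sep s) {r w : ℝ} (hr : 0 ≤ r) (hw : 0 ≤ w) (hb : ∀ x ∈ s, ‖x‖ ≤ r) (y : ι → ℝ)
    (hy : ∀ x ∈ s, ∀ i, |⟪e i, x⟫ - y i| ≤ w) (m : ℕ) :
    (m : ℝ) ^ Fintype.card ι * s.card ≤ (2 * (r + Fintype.card ι * (m * (2 * w + 1))) + 1) ^ n := by
  classical
  set φ : (ι → ℕ) × V n → V n := fun p => p.2 + ∑ i, ((p.1 i : ℝ) * (2 * w + 1)) • e i with hφ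
  set D := (Fintype.piFinset fun _ : ι => Finset.range m) ×ˢ s with hD
  have hin : ∀ (p : (ι → ℕ) × V n) (i : ι), ⟪e i, φ p⟫ = ⟪e i, p.2⟫ + p.1 i * (2 * w + 1) := by
    intro p i
    simp only [hφ, inner_add_right]
    rw [he.inner_right_fintype]
  have hsep : ∀ p ∈ D, ∀ q ∈ D, p ≠ q → 1 ≤ ‖φ p - φ q‖ := by
    intro p hp q hq hne
    have hp2 := (Finset.mem_product.1 hp).2
    have hq2 := (Finset.mem_product.1 hq).2
    by_cases h1 : p.1 = q.1
    · have h2 : p.2 ≠ q.2 := fun h => hne (Prod.ext h1 h)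
      have : φ p - φ q = p.2 - q.2 := by simp only [hφ, h1]; abel
      rw [this]; exact hs _ hp2 _ hq2 h2
    · obtain ⟨i, hi⟩ := Function.ne_iff.1 h1
      have h3 : |⟪e i, φ p - φ q⟫| ≤ ‖φ p - φ q‖ := by
        simpa [he.1 i] using abs_real_inner_le_norm (e i) (φ p - φ q)
      refine le_trans ?_ h3
      rw [inner_sub_right, hin, hin]
      have h4 := abs_le.1 (hy _ hp2 i)
      have h5 := abs_le.1 (hy _ hq2 i)
      rcases lt_or_gt_of_ne hi with h6 | h6
      · have : (p.1 i : ℝ) + 1 ≤ q.1 i := by exact_mod_cast h6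
        rw [le_abs]; right; nlinarith
      · have : (q.1 i : ℝ) + 1 ≤ p.1 i := by exact_mod_cast h6
        rw [le_abs]; left; nlinarith
  have hinj : Set.InjOn φ D := by
    intro p hp q hq he'
    by_contra hne
    have := hsep p hp q hq hne
    rw [he', sub_self, norm_zero] at this
    linarith
  have h := card_le_of_sep (D.image φ) 0 (r := r + Fintype.card ι * (m * (2 * w + 1)))
    (by positivity) ?_ ?_
  · rw [Finset.card_image_of_injOn hinj, hD, Finset.card_product, Fintype.card_piFinset] at h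
    simpa using h
  · intro c hc
    obtain ⟨p, hp, rfl⟩ := Finset.mem_image.1 hc
    rw [sub_zero]
    refine (norm_add_le _ _).trans (add_le_add (hb _ (Finset.mem_product.1 hp).2) ?_)
    refine (norm_sum_le _ _).trans ?_
    rw [← nsmul_eq_mul, ← Finset.card_univ, ← Finset.sum_const]
    refine Finset.sum_le_sum fun i _ => ?_
    have h1 := Finset.mem_range.1 (Fintype.mem_piFinset.1 (Finset.mem_product.1 hp).1 i)
    have h2 : (p.1 i : ℝ) ≤ m := by exact_mod_cast h1.le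
    rw [norm_smul, he.1 i, mul_one, Real.norm_of_nonneg (by positivity)]
    gcongr
  · intro c hc d hd hne
    obtain ⟨p, hp, rfl⟩ := Finset.mem_image.1 hc
    obtain ⟨q, hq, rfl⟩ := Finset.mem_image.1 hd
    exact hsep p hp q hq fun h => hne (by rw [h])

theorem card_slabs' {ι : Type*} [Fintype ι] {e : ι → V n} (he : Orthonormal ℝ e)
    (s : Finset (V n)) (hs : Sep s) {r w : ℝ} (hr : 1 ≤ r) (hw : 0 ≤ w) (hwr : 2 * w + 1 ≤ r)
    (hb : ∀ x ∈ s, ‖x‖ ≤ r) (y : ι → ℝ) (hy : ∀ x ∈ s, ∀ i, |⟪e i, x⟫ - y i| ≤ w) :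
    (r / (2 * w + 1)) ^ Fintype.card ι * s.card ≤ ((4 * Fintype.card ι + 3) * r) ^ n := by
  have h := card_slabs he s hs (by linarith) hw hb y hy ⌈r / (2 * w + 1)⌉₊
  have h0 : 0 < 2 * w + 1 := by linarith
  have h1 := Nat.le_ceil (r / (2 * w + 1))
  have h2 : (⌈r / (2 * w + 1)⌉₊ : ℝ) * (2 * w + 1) ≤ 2 * r := by
    have := (Nat.ceil_lt_add_one (by positivity : 0 ≤ r / (2 * w + 1))).le
    calc _ ≤ (r / (2 * w + 1) + 1) * (2 * w + 1) := by gcongr
      _ = r + (2 * w + 1) := by field_simp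
      _ ≤ _ := by linarith
  refine le_trans (by gcongr) (h.trans ?_)
  have h3 : (0 : ℝ) ≤ Fintype.card ι := Nat.cast_nonneg _
  gcongr
  nlinarith [mul_le_mul_of_nonneg_left h2 h3]

/-- one slab -/
theorem card_slab (s : Finset (V n)) (hs : Sep s) {e : V n} (he : ‖e‖ = 1) {r w y : ℝ}
    (hr : 1 ≤ r) (hw : 0 ≤ w) (hb : ∀ x ∈ s, ‖x‖ ≤ r) (hy : ∀ x ∈ s, |⟪e, x⟫ - y| ≤ w) :
    (s.card : ℝ) ≤ 7 ^ n * r ^ n * ((2 * w + 1) / r) := by
  have hr0 : 0 < r := by linarith
  rcases le_or_gt (2 * w + 1) r with h | h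
  · have ho : Orthonormal ℝ fun _ : Unit => e := by
      simp [he]
    have := card_slabs' ho s hs hr hw h hb (fun _ => y) fun x hx _ => hy x hx
    simp only [Fintype.card_unique, pow_one, Nat.cast_one] at this
    rw [← mul_pow, ← mul_div_assoc, le_div_iff₀ hr0]
    rw [div_mul_eq_mul_div, div_le_iff₀ (by linarith)] at this
    norm_num at this
    linarith
  · have h1 := card_le_of_sep s 0 hr0.le (fun c hc => by simpa using hb c hc) hs
    have h2 : 1 ≤ (2 * w + 1) / r := (one_le_div hr0).2 h.le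
    calc (s.card : ℝ) ≤ (7 * r) ^ n := h1.trans (by gcongr; linarith)
      _ = 7 ^ n * r ^ n * 1 := by rw [mul_pow, mul_one]
      _ ≤ _ := by gcongr

/-- two orthogonal slabs of half width at most `1` -/
theorem card_two_slabs (s : Finset (V n)) (hs : Sep s) {e e' : V n} (he : ‖e‖ = 1)
    (he' : ‖e'‖ = 1) (hee : ⟪e, e'⟫ = 0) {r y y' : ℝ} (hr : 3 ≤ r) (hb : ∀ x ∈ s, ‖x‖ ≤ r)
    (hy : ∀ x ∈ s, |⟪e, x⟫ - y| ≤ 1 ∧ |⟪e', x⟫ - y'| ≤ 1) :
    r ^ 2 * s.card ≤ 9 * 11 ^ n * r ^ n := by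
  have ho : Orthonormal ℝ ![e, e'] := by
    rw [orthonormal_iff_ite]
    intro i j
    fin_cases i <;> fin_cases j <;>
      simp [he, he', hee, real_inner_comm e e']
  have := card_slabs' ho s hs (w := 1) (by linarith) zero_le_one (by linarith) hb ![y, y']
    fun x hx i => by fin_cases i <;> simp [(hy x hx).1, (hy x hx).2]
  simp only [Fintype.card_fin] at this
  rw [mul_pow] at this
  norm_num at this
  rw [div_pow] at this
  linarith

/-- maximal families for an abstract symmetric relation -/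
theorem exists_maximal_family {α : Type*} (P : α → Prop) (far : α → α → Prop)
    (hsymm : ∀ a b, far a b → far b a) (hirr : ∀ a, P a → ¬ far a a) (J : ℝ)
    (hJ : ∀ F : Finset α, (∀ a ∈ F, P a) → (∀ a ∈ F, ∀ b ∈ F, a ≠ b → far a b) →
      (F.card : ℝ) ≤ J) :
    ∃ F : Finset α, (∀ a ∈ F, P a) ∧ (∀ a ∈ F, ∀ b ∈ F, a ≠ b → far a b) ∧
      ∀ a, P a → ∃ b ∈ F, ¬ far a b := by
  classical
  set Q : ℕ → Prop := fun k => ∃ F : Finset α, (∀ a ∈ F, P a) ∧
    (∀ a ∈ F, ∀ b ∈ F, a ≠ b → far a b) ∧ F.card = k with hQ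
  obtain ⟨B, hB⟩ := exists_nat_ge J
  have hle : ∀ k, Q k → k ≤ B := by
    rintro k ⟨F, h1, h2, rfl⟩
    exact_mod_cast (hJ F h1 h2).trans hB
  have h0 : Q 0 := ⟨∅, by simp, by simp, rfl⟩
  obtain ⟨F, h1, h2, h3⟩ : Q (Nat.findGreatest Q B) := Nat.findGreatest_spec (Nat.zero_le B) h0
  refine ⟨F, h1, h2, fun x hx => ?_⟩
  by_contra hcon
  push Not at hcon
  have hxF : x ∉ F := fun h => hirr x hx (hcon x h)
  have hQ' : Q (F.card + 1) := by
    refine ⟨insert x F, ?_, ?_, Finset.card_insert_of_notMem hxF⟩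
    · intro y hy
      rcases Finset.mem_insert.1 hy with rfl | hy
      exacts [hx, h1 y hy]
    · intro c hc d hd hcd
      rcases Finset.mem_insert.1 hc with rfl | hc' <;>
        rcases Finset.mem_insert.1 hd with rfl | hd'
      · exact absurd rfl hcd
      · exact hcon d hd'
      · exact hsymm _ _ (hcon c hc')
      · exact h2 c hc' d hd' hcd
  have := Nat.le_findGreatest (hle _ hQ') hQ'
  omega

/-- a bounded set has a finite separated net -/
theorem exists_net (S : Set (V n)) {r : ℝ} (hr : 0 ≤ r) (hS : ∀ x ∈ S, ‖x‖ ≤ r) :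
    ∃ Y : Finset (V n), (∀ y ∈ Y, y ∈ S) ∧ Sep Y ∧ ∀ x ∈ S, ∃ y ∈ Y, ‖x - y‖ ≤ 1 := by
  obtain ⟨Y, h1, h2, h3⟩ := exists_maximal_family (fun x => x ∈ S) (fun a b => 1 ≤ ‖a - b‖)
    (fun a b h => by rwa [norm_sub_rev]) (fun a _ => by simp) ((2 * r + 1) ^ n)
    fun F hF hF' => card_le_of_sep F 0 hr (fun c hc => by simpa using hS c (hF c hc)) hF'
  refine ⟨Y, h1, h2, fun x hx => ?_⟩
  obtain ⟨y, hy, h⟩ := h3 x hx
  exact ⟨y, hy, (not_le.1 h).le⟩

/-- many large subsets with small intersections cannot exist -/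
theorem card_family_le {α β : Type*} [DecidableEq β] (X : Finset β) (F : Finset α)
    (A : α → Finset β) (hA : ∀ a ∈ F, A a ⊆ X) {N d : ℝ} (hN : (X.card : ℝ) ≤ N) (hd : 0 < d)
    (h1 : ∀ a ∈ F, d ≤ (A a).card)
    (h2 : ∀ a ∈ F, ∀ b ∈ F, a ≠ b → ((A a ∩ A b).card : ℝ) ≤ d ^ 2 / (4 * N)) :
    (F.card : ℝ) ≤ 2 * N / d := by
  classical
  rcases F.eq_empty_or_nonempty with rfl | ⟨a₀, ha₀⟩
  · have : 0 ≤ N := (Nat.cast_nonneg _).trans hN
    simp only [Finset.card_empty, Nat.cast_zero]; positivity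
  have hN0 : 0 < N := hd.trans_le ((h1 a₀ ha₀).trans
    (le_trans (by exact_mod_cast Finset.card_le_card (hA a₀ ha₀)) hN))
  set f : β → ℝ := fun x => ∑ a ∈ F, if x ∈ A a then 1 else 0 with hf
  set S : ℝ := ∑ a ∈ F, ((A a).card : ℝ) with hS
  have e1 : ∑ x ∈ X, f x = S := by
    simp only [hf, hS]
    rw [Finset.sum_comm]
    refine Finset.sum_congr rfl fun a ha => ?_
    rw [Finset.sum_boole, Finset.filter_mem_eq_inter, Finset.inter_eq_right.2 (hA a ha)]
  have e2 : ∑ x ∈ X, f x ^ 2 = ∑ a ∈ F, ∑ b ∈ F, ((A a ∩ A b).card : ℝ) := by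
    simp only [hf, sq, Finset.sum_mul_sum]
    rw [Finset.sum_comm]
    refine Finset.sum_congr rfl fun a ha => ?_
    rw [Finset.sum_comm]
    refine Finset.sum_congr rfl fun b _ => ?_
    have : ∀ x, ((if x ∈ A a then (1 : ℝ) else 0) * if x ∈ A b then 1 else 0) =
        if x ∈ A a ∩ A b then 1 else 0 := by
      intro x; by_cases h1 : x ∈ A a <;> by_cases h2 : x ∈ A b <;> simp [h1, h2]
    simp only [this]
    rw [Finset.sum_boole, Finset.filter_mem_eq_inter,
      Finset.inter_eq_right.2 (Finset.inter_subset_left.trans (hA a ha))]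
  have e3 : ∑ a ∈ F, ∑ b ∈ F, ((A a ∩ A b).card : ℝ) ≤ S + F.card ^ 2 * (d ^ 2 / (4 * N)) := by
    have : ∀ a ∈ F, ∑ b ∈ F, ((A a ∩ A b).card : ℝ) ≤ (A a).card + F.card * (d ^ 2 / (4 * N)) := by
      intro a ha
      rw [← Finset.add_sum_erase F _ ha, Finset.inter_self]
      gcongr
      calc ∑ b ∈ F.erase a, ((A a ∩ A b).card : ℝ) ≤ ∑ _b ∈ F.erase a, d ^ 2 / (4 * N) :=
            Finset.sum_le_sum fun b hb => h2 a ha b (Finset.mem_of_mem_erase hb)
              (Finset.ne_of_mem_erase hb).symm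
        _ ≤ _ := by
            rw [Finset.sum_const, nsmul_eq_mul]
            gcongr
            exact Finset.erase_subset a F
    refine (Finset.sum_le_sum this).trans (le_of_eq ?_)
    rw [Finset.sum_add_distrib, Finset.sum_const, nsmul_eq_mul]; ring
  have e4 : S ^ 2 ≤ N * (S + F.card ^ 2 * (d ^ 2 / (4 * N))) := by
    rw [← e1]
    refine (sq_sum_le_card_mul_sum_sq (s := X) (f := f)).trans ?_
    rw [e2, e1]
    exact mul_le_mul hN e3 (Finset.sum_nonneg fun a _ => Finset.sum_nonneg fun b _ =>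
      Nat.cast_nonneg _) hN0.le
  have e5 : F.card * d ≤ S := by
    rw [← nsmul_eq_mul, ← Finset.sum_const]; exact Finset.sum_le_sum h1
  have e6 : N * (F.card ^ 2 * (d ^ 2 / (4 * N))) = (F.card * d) ^ 2 / 4 := by field_simp
  have h0 : 0 ≤ F.card * d := by positivity
  have e7 : (F.card * d) ^ 2 ≤ S ^ 2 := by gcongr
  have hS0 : 0 < S := lt_of_lt_of_le (mul_pos (by exact_mod_cast Finset.card_pos.2 ⟨a₀, ha₀⟩) hd) e5
  have e8 : S ≤ 2 * N := by
    by_contra hc
    push Not at hc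
    nlinarith
  rw [le_div_iff₀ hd]; linarith

/-- single linkage clustering -/
theorem exists_clusters {α : Type*} (F : Finset α) (rel : ℝ → α → α → Prop)
    (hrefl : ∀ a, rel 0 a a) (hsymm : ∀ θ a b, rel θ a b → rel θ b a)
    (htri : ∀ θ θ' a b c, rel θ a b → rel θ' b c → rel (θ + θ') a c)
    (hmono : ∀ θ θ' a b, θ ≤ θ' → rel θ a b → rel θ' a b) {th : ℝ} (hth : 0 ≤ th) :
    ∃ f : α → α, (∀ a ∈ F, f a ∈ F ∧ rel (F.card * th) a (f a)) ∧
      ∀ a ∈ F, ∀ b ∈ F, rel th a b → f a = f b := by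
  classical
  let G : SimpleGraph F :=
    { Adj := fun a b => a ≠ b ∧ rel th a b
      symm := ⟨fun a b h => ⟨h.1.symm, hsymm _ _ _ h.2⟩⟩
      loopless := ⟨fun a h => h.1 rfl⟩ }
  have hw : ∀ (a b : F) (p : G.Walk a b), rel (p.length * th) a b := by
    intro a b p
    induction p with
    | nil => simpa using hrefl _
    | cons h p ih =>
      have := htri _ _ _ _ _ h.2 ih
      refine hmono _ _ _ _ (le_of_eq ?_) this
      simp only [SimpleGraph.Walk.length_cons]; push_cast; ring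
  refine ⟨fun a => if h : a ∈ F then ((G.connectedComponentMk ⟨a, h⟩).out : F) else a,
    fun a ha => ?_, fun a ha b hb hab => ?_⟩
  · simp only [dif_pos ha]
    refine ⟨Finset.coe_mem _, ?_⟩
    have hr : G.Reachable ⟨a, ha⟩ (G.connectedComponentMk ⟨a, ha⟩).out :=
      SimpleGraph.ConnectedComponent.exact (Quot.out_eq _).symm
    obtain ⟨p, hp⟩ := hr.exists_isPath
    refine hmono _ _ _ _ ?_ (hw _ _ p)
    have := hp.length_lt
    rw [Fintype.card_coe] at this
    gcongr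
  · simp only [dif_pos ha, dif_pos hb]
    congr 2
    by_cases h : (⟨a, ha⟩ : F) = ⟨b, hb⟩
    · rw [h]
    · exact SimpleGraph.ConnectedComponent.connectedComponentMk_eq_of_adj ⟨h, hab⟩

end Crest.Agent.N76.II.A
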