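import Crest.Agent.N76.II.A.Core

/-! # Row 76, part A: `TI` and `TII` imply the single scale theorem `SS` (helper14). -/

set_option autoImplicit false

open MeasureTheory Set Metric
open scoped RealInnerProductSpace

namespace Crest.Agent.N76.II.A

open Crest.Agent.N76.Red Crest.Agent.N76.G

variable {n : ℕ}

theorem exists_rot (U : V n ≃ₗᵢ[ℝ] V n) (H : L2 n) : ∃ H' : L2 n, ‖H'‖ = ‖H‖ ∧
    (H' =ᵐ[volume] fun ξ => H (U.symm ξ)) ∧
    ∀ z : V n × ℝ, inner ℂ (pt (U z.1, z.2)) H' = inner ℂ (pt z) H := by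
  have hm := U.symm.measurePreserving
  refine ⟨Lp.compMeasurePreserving U.symm hm H, Lp.norm_compMeasurePreserving H hm,
    Lp.coeFn_compMeasurePreserving H hm, fun z => ?_⟩
  have e1 := co_eq one_pos z.2 (Lp.compMeasurePreserving U.symm hm H) (U z.1, 0)
  have e2 := co_eq one_pos z.2 H (z.1, 0)
  simp only [co] at e1 e2
  simp only [pt]
  rw [e1, e2, ← hm.integral_comp U.symm.toHomeomorph.measurableEmbedding
    fun ξ => (starRingEnd ℂ) (gamF 1 z.2 (z.1, 0) ξ) * H ξ]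
  refine integral_congr_ae ?_
  filter_upwards [Lp.coeFn_compMeasurePreserving H hm] with ξ h
  rw [h, Function.comp_apply]
  congr 2
  simp only [gamF, sub_zero, LinearIsometryEquiv.norm_map]
  rw [← U.inner_map_map z.1 (U.symm ξ), U.apply_symm_apply]

/-- `TII` for an arbitrary normal -/
theorem tii_rot {d : ℕ} {R u w Λ : ℝ} {N : ℕ} {M : ℝ}
    (h : ∀ X : Finset (V (d + 1) × ℝ), Graph R X → X.card ≤ N → ∀ (c₀ : ℝ) (Y : Finset ℝ),
      (Y.card : ℝ) ≤ M → (∀ z ∈ X, ∃ y ∈ Y, |z.1 0 + 2 * c₀ * z.2 - y| ≤ u) →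
      ∀ H : L2 (d + 1), Supp H → (∀ᵐ ξ : V (d + 1), w < |ξ 0 - c₀| → H ξ = 0) →
      en X H ≤ Λ * ‖H‖ ^ 2)
    (X : Finset (V (d + 1) × ℝ)) (hX : Graph R X) (hN : X.card ≤ N) (ν : V (d + 1)) (c : ℝ)
    (Y : Finset ℝ) (hν : ‖ν‖ = 1) (hY : (Y.card : ℝ) ≤ M)
    (hXY : ∀ z ∈ X, ∃ y ∈ Y, |⟪ν, z.1⟫ + 2 * c * z.2 - y| ≤ u) (H : L2 (d + 1)) (hH : Supp H)
    (hw : ∀ᵐ ξ : V (d + 1), w < |⟪ν, ξ⟫ - c| → H ξ = 0) : en X H ≤ Λ * ‖H‖ ^ 2 := by
  classical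
  set e : V (d + 1) := EuclideanSpace.single 0 1 with he
  obtain ⟨U, hU⟩ : ∃ U : V (d + 1) ≃ₗᵢ[ℝ] V (d + 1), U ν = e :=
    ⟨_, Submodule.reflection_sub (by simp [hν, he])⟩
  have hUx : ∀ x, U x 0 = ⟪ν, x⟫ := fun x => by
    rw [← U.inner_map_map, hU, he, EuclideanSpace.inner_single_left]; simp
  obtain ⟨H', h1, h2, h3⟩ := exists_rot U H
  have hinj : Function.Injective fun z : V (d + 1) × ℝ => (U z.1, z.2) := fun z z' hz => by
    simp only [Prod.mk.injEq, EmbeddingLike.apply_eq_iff_eq] at hz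
    exact Prod.ext hz.1 hz.2
  have hq := U.symm.measurePreserving.quasiMeasurePreserving
  have key := h (X.image fun z => (U z.1, z.2)) ⟨?_, ?_⟩
    (by rwa [Finset.card_image_of_injective _ hinj]) c Y hY ?_ H' ?_ ?_
  · rw [en, Finset.sum_image fun a _ b _ hab => hinj hab, h1] at key
    simpa only [h3, en] using key
  · intro z₁ hz₁
    obtain ⟨z, hz, rfl⟩ := Finset.mem_image.1 hz₁
    simpa using hX.1 z hz
  · intro z₁ hz₁ z₂ hz₂ hne
    obtain ⟨z, hz, rfl⟩ := Finset.mem_image.1 hz₁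
    obtain ⟨z', hz', rfl⟩ := Finset.mem_image.1 hz₂
    rw [← map_sub, U.norm_map]
    exact hX.2 z hz z' hz' fun h => hne (by rw [h])
  · intro z₁ hz₁
    obtain ⟨z, hz, rfl⟩ := Finset.mem_image.1 hz₁
    simpa only [hUx] using hXY z hz
  · filter_upwards [h2, hq.ae hH] with ξ h4 h5 h6
    rw [h4]; exact h5 (by simpa using h6)
  · filter_upwards [h2, hq.ae hw] with ξ h4 h5 h6
    rw [h4]; refine h5 ?_
    rwa [← hUx, U.apply_symm_apply]

theorem en_le_card (X : Finset (V n × ℝ)) (H : L2 n) : en X H ≤ X.card * ‖H‖ ^ 2 := by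
  rw [en, ← nsmul_eq_mul, ← Finset.sum_const]
  refine Finset.sum_le_sum fun z _ => pow_le_pow_left₀ (norm_nonneg _) ?_ 2
  simpa [pt, norm_gam one_pos] using norm_inner_le_norm (𝕜 := ℂ) (pt z) H

theorem en_bound (d : ℕ) (hd : 1 ≤ d) (hI : TI (d + 1)) (hII : TII d) :
    ∃ c γ C : ℝ, 0 < γ ∧ γ ≤ c ∧ 0 ≤ C ∧ ∀ R : ℝ, 1 ≤ R → ∀ X : Finset (V (d + 1) × ℝ), Graph R X →
      ∀ H : L2 (d + 1), Supp H → en X H ≤ C * R ^ (((d : ℝ) + 1) / (d + 2)) *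
        (((X.card : ℝ) / R ^ (d + 1)) ^ c + R ^ (-γ)) * ‖H‖ ^ 2 := by
  obtain ⟨α₀, hα₀, hII⟩ := hII
  have hd' : (1 : ℝ) ≤ d := by exact_mod_cast hd
  set α : ℝ := min (α₀ / 8) (1 / (4 * ((d : ℝ) + 2))) with hα
  have hα0 : 0 < α := lt_min (by positivity) (by positivity)
  have hα1 : 8 * α ≤ α₀ := by linarith [min_le_left (α₀ / 8) (1 / (4 * ((d : ℝ) + 2)))]
  have hα2 : α ≤ 1 / (4 * ((d : ℝ) + 2)) := min_le_right _ _
  have hα3 : α ≤ 1 / 12 := hα2.trans (by gcongr; linarith)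
  obtain ⟨c, C₂, hc, hC₂, hII⟩ := hII (8 * α) (by positivity) hα1
  obtain ⟨δ, C₁, hδ, hC₁, hI₁⟩ := hI α hα0
  set a : ℝ := min α δ / 5 with ha
  have ha0 : 0 < a := by have := lt_min hα0 hδ; positivity
  obtain ⟨δ₀, C₀, hδ₀, hC₀, hI₀⟩ := hI a ha0
  have ha1 : 5 * a ≤ α := by linarith [min_le_left α δ]
  have ha2 : 5 * a ≤ δ := by linarith [min_le_right α δ]
  set R₀ : ℝ := (20 * 21 ^ (d + 1) : ℝ) ^ a⁻¹ with hR₀
  have hK : (1 : ℝ) ≤ 20 * 21 ^ (d + 1) := by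
    have : (1 : ℝ) ≤ 21 ^ (d + 1) := one_le_pow₀ (by norm_num)
    linarith
  have hR₀1 : 1 ≤ R₀ := Real.one_le_rpow hK (by positivity)
  set γ : ℝ := min (min δ₀ (δ / 2)) c with hγ
  have hγ0 : 0 < γ := lt_min (lt_min hδ₀ (by positivity)) hc
  have hγ1 : γ ≤ δ₀ := (min_le_left _ _).trans (min_le_left _ _)
  have hγ2 : γ ≤ δ / 2 := (min_le_left _ _).trans (min_le_right _ _)
  have hγ3 : γ ≤ c := min_le_right _ _
  refine ⟨c, γ, (3 * R₀) ^ (d + 1) * R₀ ^ γ + (C₀ + 6 * C₁ + 3 * C₂), hγ0, hγ3, by positivity,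
    fun R hR X hX H hH => ?_⟩
  have hR0 : 0 < R := by linarith
  set s : ℝ := ((d : ℝ) + 1) / (d + 2) with hs
  have hs' : (((d + 1 : ℕ) : ℝ)) / (((d + 1 : ℕ) : ℝ) + 1) = s := by
    rw [hs]; push_cast; ring
  have hs1 : 1 ≤ R ^ s := Real.one_le_rpow hR (by positivity)
  set t : ℝ := ((X.card : ℝ) / R ^ (d + 1)) ^ c with ht
  have ht0 : 0 ≤ t := by positivity
  have hRγ : 0 < R ^ (-γ) := by positivity
  have hH0 : 0 ≤ ‖H‖ ^ 2 := by positivity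
  rcases le_total R R₀ with hRR | hRR
  · refine (en_le_card X H).trans ?_
    gcongr
    have h1 : (X.card : ℝ) ≤ (3 * R₀) ^ (d + 1) := (graph_card hR hX).trans (by gcongr)
    have h2 : 1 ≤ R₀ ^ γ * R ^ (-γ) := by
      rw [Real.rpow_neg hR0.le, ← div_eq_mul_inv, one_le_div (by positivity)]
      gcongr
    calc (X.card : ℝ) ≤ (3 * R₀) ^ (d + 1) * (R₀ ^ γ * R ^ (-γ)) :=
          h1.trans (le_mul_of_one_le_right (by positivity) h2)
      _ = ((3 * R₀) ^ (d + 1) * R₀ ^ γ) * 1 * R ^ (-γ) := by ring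
      _ ≤ _ := by
          gcongr
          · have : 0 ≤ C₀ + 6 * C₁ + 3 * C₂ := by positivity
            linarith
          · linarith
  have hpow : ∀ (x : ℝ) (k : ℕ), (R ^ x) ^ k = R ^ (k * x) := fun x k => by
    rw [← Real.rpow_natCast, ← Real.rpow_mul hR0.le, mul_comm]
  have hmono : ∀ {x y : ℝ}, x ≤ y → R ^ x ≤ R ^ y := fun h => Real.rpow_le_rpow_of_exponent_le hR h
  have hdiv : ∀ x : ℝ, R ^ (((d + 1 : ℕ) : ℝ) - x) = R ^ (d + 1) / R ^ x := fun x => by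
    rw [Real.rpow_sub hR0, Real.rpow_natCast]
  have hoff : ∀ (x : ℝ) (X' : Finset (V (d + 1) × ℝ)) (H : L2 (d + 1)), Off R √R (R ^ x) X' H →
      ∀ (ν : V (d + 1)) (c y : ℝ), ‖ν‖ = 1 →
        R ^ (((d + 1 : ℕ) : ℝ) - x) ≤ ms X' id (fun _ => 1) (plank ν c y (R ^ x * √R)) →
        ∀ᵐ ξ : V (d + 1), |⟪ν, ξ⟫ - c| ≤ R ^ x / √R → H ξ = 0 := by
    intro x X' H h ν c y hν hm
    rw [ms_eq, hdiv] at hm
    exact h (ν, c, y) hν hm
  have hcore := core (n := d + 1) (by omega) (R := R) (T := √R) (P := R ^ a) (Q := R ^ α)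
    (ε₀ := C₀ * R ^ (s - δ₀)) (ε := C₁ * R ^ (s - δ))
    (Λ := C₂ * R ^ s * (t + R ^ (-c))) (Real.sq_sqrt hR0.le) ?_ ?_ ?_ (by positivity)
    (by positivity) hX ?_ ?_ ?_ ?_ H hH
  · refine hcore.trans ?_
    gcongr
    have e1 : R ^ (s - δ₀) ≤ R ^ s * R ^ (-γ) := by
      rw [← Real.rpow_add hR0]; exact hmono (by linarith)
    have e2 : (R ^ a) ^ 2 * R ^ (s - δ) ≤ R ^ s * R ^ (-γ) := by
      rw [hpow, ← Real.rpow_add hR0, ← Real.rpow_add hR0]; exact hmono (by push_cast; linarith)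
    have e3 : R ^ (-c) ≤ R ^ (-γ) := hmono (by linarith)
    have e4 : R ^ s * R ^ (-γ) ≤ R ^ s * (t + R ^ (-γ)) := by gcongr; linarith
    calc _ = C₀ * R ^ (s - δ₀) + 6 * C₁ * ((R ^ a) ^ 2 * R ^ (s - δ)) +
          3 * C₂ * (R ^ s * (t + R ^ (-c))) := by ring
      _ ≤ C₀ * (R ^ s * (t + R ^ (-γ))) + 6 * C₁ * (R ^ s * (t + R ^ (-γ))) +
          3 * C₂ * (R ^ s * (t + R ^ (-γ))) := by
          gcongr C₀ * ?_ + 6 * C₁ * ?_ + 3 * C₂ * (R ^ s * (t + ?_))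
          · exact e1.trans e4
          · exact e2.trans e4
      _ = (0 + (C₀ + 6 * C₁ + 3 * C₂)) * R ^ s * (t + R ^ (-γ)) := by ring
      _ ≤ _ := by gcongr; positivity
  · calc (20 : ℝ) * 21 ^ (d + 1) = R₀ ^ a := by
          rw [hR₀, Real.rpow_inv_rpow (by positivity) ha0.ne']
      _ ≤ R ^ a := by gcongr
  · rw [hpow]; exact hmono (by push_cast; linarith)
  · rw [hpow, Real.sqrt_eq_rpow]; exact hmono (by push_cast; linarith)
  · intro X' hX' H hH h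
    have := hI₀ R hR X' (Graph.mono hX hX') H hH (Or.inr (Or.inl (hoff a X' H h)))
    rwa [En_eq, hs'] at this
  · intro X' hX' H hH h
    have := hI₁ R hR X' (Graph.mono hX hX') H hH (Or.inr (Or.inl (hoff α X' H h)))
    rwa [En_eq, hs'] at this
  · intro X' hX' H hH G hG h
    have := hI₁ R hR X' (Graph.mono hX hX') H hH (Or.inr (Or.inr ⟨(R ^ α) ^ 2,
      one_le_pow₀ (Real.one_le_rpow hR hα0.le), ?_, G, ?_, h⟩))
    · rwa [En_eq, hs'] at this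
    · rw [hpow, Ssc]
      refine hmono ?_
      have : 1 / (2 * (((d + 1 : ℕ) : ℝ) + 1)) = 2 * (1 / (4 * ((d : ℝ) + 2))) := by
        push_cast; field_simp; ring
      rw [this]; push_cast; linarith
    · rwa [Real.rpow_neg hR0.le, ← div_eq_mul_inv]
  · intro X' hX' ν c' Y hν hY hXY H hH h
    refine tii_rot (R := R) (N := X.card) (M := (R ^ α) ^ 8) ?_ X' (Graph.mono hX hX')
      (Finset.card_le_card hX') ν c' Y hν hY hXY H hH h
    intro X₁ h1 h2 c₀ Y₁ h3 h4 H₁ h5 h6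
    rw [hpow] at h3 h4 h6
    push_cast at h3 h4 h6
    have := hII R hR X₁ h1 c₀ Y₁ h3 h4 H₁ h5 h6
    rw [En_eq] at this
    refine this.trans ?_
    simp only [ht]
    gcongr

end Crest.Agent.N76.II.A

namespace Crest.Agent.N76.II

open Crest.Agent.N76.Red Crest.Agent.N76.G A

/-- **Part A.** -/
theorem ss_of (d : ℕ) (hd : 1 ≤ d) (hI : TI (d + 1)) (hII : TII d) : SS (d + 1) := by
  obtain ⟨c, γ, C, hγ, hγc, hC, h⟩ := en_bound d hd hI hII
  have hn : (1 : ℝ) ≤ ((d + 1 : ℕ) : ℝ) := by exact_mod_cast Nat.le_add_left 1 d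
  set c' : ℝ := γ / ((d + 1 : ℕ) : ℝ) with hc'
  have hc'0 : 0 < c' := by positivity
  have hc'1 : c' ≤ c := (div_le_self hγ.le hn).trans hγc
  refine ⟨c', C * (((3 : ℝ) ^ (d + 1)) ^ (c - c') + 1) * Real.exp (2 * Real.pi), hc'0,
    fun R hR X hX1 hX2 g hg hs lam hlam hl => ?_⟩
  have hR0 : 0 < R := by linarith
  have hI : 0 ≤ ∫ ξ, ‖g ξ‖ ^ 2 := integral_nonneg fun ξ => by positivity
  rcases X.eq_empty_or_nonempty with rfl | hne
  · simp only [Finset.card_empty, Nat.cast_zero, mul_zero]; positivity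
  obtain ⟨H, h1, h2, h3⟩ := exists_ext_eq g hg hs
  have hH : Supp H := by
    filter_upwards [h1] with ξ h4 h5
    rw [h4, hs ξ h5, mul_zero]
  have h4 := h R hR X ⟨hX1, hX2⟩ H hH
  have h5 : lam ^ 2 * X.card ≤ en X H := by
    rw [mul_comm, ← nsmul_eq_mul, ← Finset.sum_const]
    exact Finset.sum_le_sum fun z hz => pow_le_pow_left₀ hlam (by rw [← h3]; exact hl z hz) 2
  set t : ℝ := (X.card : ℝ) / R ^ (d + 1) with ht
  have ht0 : 0 ≤ t := by positivity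
  have ht1 : t ≤ 3 ^ (d + 1) := by
    rw [ht, div_le_iff₀ (by positivity), ← mul_pow]; exact graph_card hR ⟨hX1, hX2⟩
  have ht2 : (R ^ (d + 1))⁻¹ ≤ t := by
    rw [ht, ← one_div]; gcongr; exact_mod_cast hne.card_pos
  have h6 : t ^ c ≤ ((3 : ℝ) ^ (d + 1)) ^ (c - c') * t ^ c' := by
    have hd : 0 ≤ c - c' := by linarith
    calc t ^ c = t ^ ((c - c') + c') := by congr 1; ring
      _ = _ := Real.rpow_add_of_nonneg ht0 hd hc'0.le
      _ ≤ _ := by gcongr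
  have h7 : R ^ (-γ) ≤ t ^ c' := by
    calc R ^ (-γ) = ((R ^ (d + 1))⁻¹) ^ c' := by
          rw [← Real.rpow_natCast, ← Real.rpow_neg hR0.le, ← Real.rpow_mul hR0.le, hc']
          congr 1; field_simp
      _ ≤ _ := by gcongr
  have hs' : (((d + 1 : ℕ) : ℝ)) / (((d + 1 : ℕ) : ℝ) + 1) = ((d : ℝ) + 1) / (d + 2) := by
    push_cast; ring
  rw [hs']
  refine h5.trans (h4.trans ?_)
  calc _ ≤ C * R ^ (((d : ℝ) + 1) / (d + 2)) *
        (((3 : ℝ) ^ (d + 1)) ^ (c - c') * t ^ c' + t ^ c') *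
        (Real.exp (2 * Real.pi) * ∫ ξ, ‖g ξ‖ ^ 2) := by gcongr
    _ = _ := by ring

end Crest.Agent.N76.II
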