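import Crest.Agent.N76.II.A.Geo
import Crest.Agent.N76.II.Defs

/-! # Row 76, part A: geometry of planks and slabs (helper14). -/

set_option autoImplicit false

open Set Metric
open scoped RealInnerProductSpace

namespace Crest.Agent.N76.II.A

open Crest.Agent.N76.Red Crest.Agent.N76.G

variable {n : ℕ}

/-- parameters `(ν, c, y)` of a plank -/
abbrev Pm (n : ℕ) := V n × ℝ × ℝ

/-- the normals `(ν, c)` are `θ`-close up to sign -/
def rel (θ : ℝ) (p q : Pm n) : Prop :=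
  ∃ σ : ℝ, (σ = 1 ∨ σ = -1) ∧ ‖p.1 - σ • q.1‖ ≤ θ ∧ |p.2.1 - σ * q.2.1| ≤ θ

theorem rel_refl (p : Pm n) : rel 0 p p := ⟨1, Or.inl rfl, by simp, by simp⟩

theorem rel_symm (θ : ℝ) (p q : Pm n) (h : rel θ p q) : rel θ q p := by
  obtain ⟨σ, hσ, h1, h2⟩ := h
  refine ⟨σ, hσ, ?_, ?_⟩
  · rcases hσ with rfl | rfl
    · rw [norm_sub_rev]; simpa using h1
    · simpa [add_comm] using h1
  · rcases hσ with rfl | rfl
    · rw [abs_sub_comm]; simpa using h2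
    · simpa [add_comm] using h2

theorem rel_tri (θ θ' : ℝ) (p q r : Pm n) (h : rel θ p q) (h' : rel θ' q r) :
    rel (θ + θ') p r := by
  obtain ⟨σ, hσ, h1, h2⟩ := h
  obtain ⟨τ, hτ, h3, h4⟩ := h'
  have ha : |σ| = 1 := by rcases hσ with rfl | rfl <;> simp
  refine ⟨σ * τ, by rcases hσ with rfl | rfl <;> rcases hτ with rfl | rfl <;> simp, ?_, ?_⟩
  · have : p.1 - (σ * τ) • r.1 = (p.1 - σ • q.1) + σ • (q.1 - τ • r.1) := by
      rw [smul_sub, smul_smul]; abel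
    rw [this]
    refine (norm_add_le _ _).trans (add_le_add h1 ?_)
    rw [norm_smul, Real.norm_eq_abs, ha, one_mul]; exact h3
  · have : p.2.1 - σ * τ * r.2.1 = (p.2.1 - σ * q.2.1) + σ * (q.2.1 - τ * r.2.1) := by ring
    rw [this]
    refine (abs_add_le _ _).trans (add_le_add h2 ?_)
    rw [abs_mul, ha, one_mul]; exact h4

theorem rel_mono (θ θ' : ℝ) (p q : Pm n) (hθ : θ ≤ θ') (h : rel θ p q) : rel θ' p q := by
  obtain ⟨σ, hσ, h1, h2⟩ := h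
  exact ⟨σ, hσ, h1.trans hθ, h2.trans hθ⟩

/-- the plank with parameters `p` -/
def pk (p : Pm n) (u : ℝ) : Set (V n × ℝ) := plank p.1 p.2.1 p.2.2 u

/-- the dual slab -/
def sl (p : Pm n) (w : ℝ) : Set (V n) := {ξ | |⟪p.1, ξ⟫ - p.2.1| ≤ w}

theorem pk_mono (p : Pm n) {u u' : ℝ} (h : u ≤ u') : pk p u ⊆ pk p u' :=
  fun _ hz => le_trans hz h

theorem sl_mono (p : Pm n) {u u' : ℝ} (h : u ≤ u') : sl p u ⊆ sl p u' :=
  fun _ hz => le_trans hz h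

theorem measurableSet_sl (p : Pm n) (w : ℝ) : MeasurableSet (sl p w) :=
  measurableSet_le (by fun_prop) measurable_const

theorem abs_inner_le {v x : V n} {θ r : ℝ} (hv : ‖v‖ ≤ θ) (hx : ‖x‖ ≤ r) : |⟪v, x⟫| ≤ θ * r :=
  (abs_real_inner_le_norm v x).trans
    (mul_le_mul hv hx (norm_nonneg _) ((norm_nonneg _).trans hv))

theorem sl_of_rel {p q : Pm n} {θ w : ℝ} (h : rel θ p q) {ξ : V n} (hξ : ‖ξ‖ ≤ 1)
    (hp : ξ ∈ sl p w) : ξ ∈ sl q (w + 2 * θ) := by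
  obtain ⟨σ, hσ, h1, h2⟩ := h
  have h3 := abs_le.1 (abs_inner_le h1 hξ)
  rw [inner_sub_left, real_inner_smul_left] at h3
  have h4 := abs_le.1 (show |⟪p.1, ξ⟫ - p.2.1| ≤ w from hp)
  have h5 := abs_le.1 h2
  change |⟪q.1, ξ⟫ - q.2.1| ≤ w + 2 * θ
  rw [abs_le]
  rcases hσ with rfl | rfl <;> constructor <;> linarith [h3.1, h3.2, h4.1, h4.2, h5.1, h5.2]

theorem near_of_rel {p q : Pm n} {θ u R : ℝ} (h : rel θ p q) {z : V n × ℝ} (hz : ‖z.1‖ ≤ R ∧ |z.2| ≤ R)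
    (hp : z ∈ pk p u) : ∃ σ : ℝ, (σ = 1 ∨ σ = -1) ∧
      |⟪q.1, z.1⟫ + 2 * q.2.1 * z.2 - σ * p.2.2| ≤ u + 3 * θ * R := by
  obtain ⟨σ, hσ, h1, h2⟩ := h
  refine ⟨σ, hσ, ?_⟩
  have h3 := abs_le.1 (abs_inner_le h1 hz.1)
  rw [inner_sub_left, real_inner_smul_left] at h3
  have h4 := abs_le.1 (show |⟪p.1, z.1⟫ + 2 * p.2.1 * z.2 - p.2.2| ≤ u from hp)
  have h5 : |(p.2.1 - σ * q.2.1) * z.2| ≤ θ * R := by
    rw [abs_mul]; exact mul_le_mul h2 hz.2 (abs_nonneg _) ((abs_nonneg _).trans h2)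
  have h6 := abs_le.1 h5
  rw [abs_le]
  rcases hσ with rfl | rfl <;> constructor <;> nlinarith [h3.1, h3.2, h4.1, h4.2, h6.1, h6.2]

theorem pk_of_rel {p q : Pm n} {θ u R : ℝ} (h : rel θ p q) {z z₀ : V n × ℝ}
    (hz : ‖z.1‖ ≤ R ∧ |z.2| ≤ R) (hz₀ : ‖z₀.1‖ ≤ R ∧ |z₀.2| ≤ R) (hp : z ∈ pk p u)
    (hp₀ : z₀ ∈ pk p u) (hq₀ : z₀ ∈ pk q u) : z ∈ pk q (3 * u + 6 * θ * R) := by
  obtain ⟨σ, hσ, h1, h2⟩ := h
  have h3 := abs_le.1 (abs_inner_le h1 hz.1)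
  have h3' := abs_le.1 (abs_inner_le h1 hz₀.1)
  rw [inner_sub_left, real_inner_smul_left] at h3 h3'
  have h4 := abs_le.1 (show |⟪p.1, z.1⟫ + 2 * p.2.1 * z.2 - p.2.2| ≤ u from hp)
  have h4' := abs_le.1 (show |⟪p.1, z₀.1⟫ + 2 * p.2.1 * z₀.2 - p.2.2| ≤ u from hp₀)
  have h4'' := abs_le.1 (show |⟪q.1, z₀.1⟫ + 2 * q.2.1 * z₀.2 - q.2.2| ≤ u from hq₀)
  have h5 : ∀ t : ℝ, |t| ≤ R → |(p.2.1 - σ * q.2.1) * t| ≤ θ * R := fun t ht => by
    rw [abs_mul]; exact mul_le_mul h2 ht (abs_nonneg _) ((abs_nonneg _).trans h2)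
  have h6 := abs_le.1 (h5 _ hz.2)
  have h6' := abs_le.1 (h5 _ hz₀.2)
  change |⟪q.1, z.1⟫ + 2 * q.2.1 * z.2 - q.2.2| ≤ _
  rw [abs_le]
  rcases hσ with rfl | rfl <;> constructor <;>
    nlinarith [h3.1, h3.2, h4.1, h4.2, h6.1, h6.2, h3'.1, h3'.2, h4'.1, h4'.2, h6'.1, h6'.2,
      h4''.1, h4''.2]

theorem Graph.mono {R : ℝ} {X Y : Finset (V n × ℝ)} (h : Graph R X) (hY : Y ⊆ X) : Graph R Y :=
  ⟨fun z hz => h.1 z (hY hz), fun z hz z' hz' => h.2 z (hY hz) z' (hY hz')⟩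

theorem graph_proj {R : ℝ} {X : Finset (V n × ℝ)} (h : Graph R X) :
    ∃ s : Finset (V n), s.card = X.card ∧ Sep s ∧ ∀ x ∈ s, ∃ z ∈ X, z.1 = x := by
  classical
  have hinj : Set.InjOn Prod.fst (X : Set (V n × ℝ)) := by
    intro z hz z' hz' he
    by_contra hne
    have := h.2 z hz z' hz' hne
    rw [he, sub_self, norm_zero] at this
    linarith
  refine ⟨X.image Prod.fst, Finset.card_image_of_injOn hinj, ?_, fun x hx => ?_⟩
  · intro y hy y' hy' hne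
    obtain ⟨z, hz, rfl⟩ := Finset.mem_image.1 hy
    obtain ⟨z', hz', rfl⟩ := Finset.mem_image.1 hy'
    exact h.2 z hz z' hz' fun h => hne (by rw [h])
  · simpa using hx

theorem graph_card {R : ℝ} (hR : 1 ≤ R) {X : Finset (V n × ℝ)} (h : Graph R X) :
    (X.card : ℝ) ≤ (3 * R) ^ n := by
  obtain ⟨s, h1, h2, h3⟩ := graph_proj h
  rw [← h1]
  refine (card_le_of_sep s 0 (r := R) (by linarith) (fun x hx => ?_) h2).trans ?_
  · obtain ⟨z, hz, rfl⟩ := h3 x hx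
    simpa using (h.1 z hz).1
  · gcongr; linarith

theorem two_planks_aux {R u κ : ℝ} (hR : 1 ≤ R) (hκ : 0 < κ) (hκ1 : κ ≤ 1) (hu : 1 ≤ u)
    {X : Finset (V n × ℝ)} (hX : Graph R X) {p q : Pm n} (hp : ‖p.1‖ = 1) (hq : ‖q.1‖ = 1)
    (hc : |p.2.1| ≤ |q.2.1|) (hc2 : |q.2.1| ≤ 2) (hpq : ∀ z ∈ X, z ∈ pk p u ∧ z ∈ pk q u)
    (hcard : 7 ^ n * R ^ n * (5 * u / κ / R) < X.card) : rel (2 * κ) p q := by
  obtain ⟨β, hβ, hβc⟩ : ∃ β : ℝ, |β| ≤ 1 ∧ p.2.1 = β * q.2.1 := by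
    rcases eq_or_ne q.2.1 0 with h0 | h0
    · refine ⟨0, by simp, ?_⟩
      rw [h0, abs_zero] at hc
      simpa using abs_nonpos_iff.1 hc
    · exact ⟨p.2.1 / q.2.1, by rw [abs_div]; exact div_le_one_of_le₀ hc (abs_nonneg _),
        by field_simp⟩
  set v : V n := p.1 - β • q.1 with hv
  have hvκ : ‖v‖ < κ := by
    by_contra hcon
    push Not at hcon
    have hv0 : 0 < ‖v‖ := hκ.trans_le hcon
    obtain ⟨s, h1, h2, h3⟩ := graph_proj hX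
    have h4 := card_slab s h2 (e := ‖v‖⁻¹ • v) (by rw [norm_smul]; simp [hv0.ne'])
      (w := 2 * u / κ) (y := ‖v‖⁻¹ * (p.2.2 - β * q.2.2)) hR (by positivity)
      (fun x hx => by obtain ⟨z, hz, rfl⟩ := h3 x hx; exact (hX.1 z hz).1) fun x hx => by
        obtain ⟨z, hz, rfl⟩ := h3 x hx
        rw [real_inner_smul_left, ← mul_sub, abs_mul, abs_of_pos (inv_pos.2 hv0),
          inv_mul_le_iff₀ hv0]
        have e : ⟪v, z.1⟫ - (p.2.2 - β * q.2.2) = (⟪p.1, z.1⟫ + 2 * p.2.1 * z.2 - p.2.2) -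
            β * (⟪q.1, z.1⟫ + 2 * q.2.1 * z.2 - q.2.2) := by
          rw [hv, inner_sub_left, real_inner_smul_left, hβc]; ring
        rw [e]
        refine (abs_sub _ _).trans ?_
        have h5 : |⟪p.1, z.1⟫ + 2 * p.2.1 * z.2 - p.2.2| ≤ u := (hpq z hz).1
        have h6 : |⟪q.1, z.1⟫ + 2 * q.2.1 * z.2 - q.2.2| ≤ u := (hpq z hz).2
        have h7 : |β * (⟪q.1, z.1⟫ + 2 * q.2.1 * z.2 - q.2.2)| ≤ 1 * u := by
          rw [abs_mul]; gcongr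
        have h8 : κ * (2 * u / κ) = 2 * u := by field_simp
        calc _ ≤ κ * (2 * u / κ) := by rw [h8]; linarith
          _ ≤ _ := by gcongr
    rw [h1] at h4
    have h8 : 2 * (2 * u / κ) + 1 ≤ 5 * u / κ := by
      have : 1 ≤ u / κ := (one_le_div hκ).2 (hκ1.trans hu)
      calc _ = 4 * (u / κ) + 1 := by ring
        _ ≤ 5 * (u / κ) := by linarith
        _ = _ := by ring
    have : (7 : ℝ) ^ n * R ^ n * ((2 * (2 * u / κ) + 1) / R) ≤ 7 ^ n * R ^ n * (5 * u / κ / R) := by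
      gcongr
    linarith
  have hβ1 : 1 - |β| ≤ κ := by
    have := norm_sub_norm_le p.1 (β • q.1)
    rw [hp, norm_smul, hq, mul_one, Real.norm_eq_abs] at this
    linarith
  obtain ⟨σ, hσ, hσβ⟩ : ∃ σ : ℝ, (σ = 1 ∨ σ = -1) ∧ |β - σ| ≤ κ := by
    rcases le_total 0 β with h | h
    · rw [abs_of_nonneg h] at hβ hβ1
      exact ⟨1, Or.inl rfl, abs_le.2 ⟨by linarith, by linarith⟩⟩
    · rw [abs_of_nonpos h] at hβ hβ1
      exact ⟨-1, Or.inr rfl, abs_le.2 ⟨by linarith, by linarith⟩⟩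
  refine ⟨σ, hσ, ?_, ?_⟩
  · have : p.1 - σ • q.1 = v + (β - σ) • q.1 := by rw [hv, sub_smul]; abel
    rw [this]
    refine (norm_add_le _ _).trans ?_
    rw [norm_smul, hq, Real.norm_eq_abs]; linarith
  · rw [hβc, ← sub_mul, abs_mul, mul_comm]; gcongr

/-- two planks with many common points have close normals -/
theorem two_planks {R u κ : ℝ} (hR : 1 ≤ R) (hκ : 0 < κ) (hκ1 : κ ≤ 1) (hu : 1 ≤ u)
    {X : Finset (V n × ℝ)} (hX : Graph R X) {p q : Pm n} (hp : ‖p.1‖ = 1) (hq : ‖q.1‖ = 1)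
    (hc : |p.2.1| ≤ 2) (hc2 : |q.2.1| ≤ 2) (hpq : ∀ z ∈ X, z ∈ pk p u ∧ z ∈ pk q u)
    (hcard : 7 ^ n * R ^ n * (5 * u / κ / R) < X.card) : rel (2 * κ) p q := by
  rcases le_total |p.2.1| |q.2.1| with h | h
  · exact two_planks_aux hR hκ hκ1 hu hX hp hq h hc2 hpq hcard
  · exact rel_symm _ _ _ (two_planks_aux hR hκ hκ1 hu hX hq hp h hc
      (fun z hz => (hpq z hz).symm) hcard)

/-- two transversal slabs meet in a thin set -/
theorem two_slabs {p q : Pm n} (hp : ‖p.1‖ = 1) (hq : ‖q.1‖ = 1) {th w s : ℝ} (hth : 0 < th)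
    (hw : 4 * w ≤ th) (hs : 3 ≤ s) (hw1 : w * s ≤ 1) (hw2 : 12 * w * s ≤ th) (hpq : ¬ rel th p q)
    (Y : Finset (V n)) (hY : Sep Y)
    (hY' : ∀ x ∈ Y, ‖x‖ ≤ s ∧ s⁻¹ • x ∈ sl p w ∧ s⁻¹ • x ∈ sl q w) :
    s ^ 2 * Y.card ≤ 9 * 11 ^ n * s ^ n := by
  rcases Y.eq_empty_or_nonempty with rfl | ⟨x₀, hx₀⟩
  · simp only [Finset.card_empty, Nat.cast_zero, mul_zero]; positivity
  have hs0 : 0 < s := by linarith
  have hfar : ∀ σ : ℝ, (σ = 1 ∨ σ = -1) → th / 4 < ‖p.1 - σ • q.1‖ := by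
    intro σ hσ
    by_contra hcon
    push Not at hcon
    refine hpq ⟨σ, hσ, by linarith, ?_⟩
    have h0 : ‖s⁻¹ • x₀‖ ≤ 1 := by
      rw [norm_smul, Real.norm_of_nonneg (inv_pos.2 hs0).le, inv_mul_le_iff₀ hs0, mul_one]
      exact (hY' x₀ hx₀).1
    have h3 := abs_le.1 (abs_inner_le hcon h0)
    rw [inner_sub_left, real_inner_smul_left] at h3
    have h4 := abs_le.1 (show |⟪p.1, s⁻¹ • x₀⟫ - p.2.1| ≤ w from (hY' x₀ hx₀).2.1)
    have h5 := abs_le.1 (show |⟪q.1, s⁻¹ • x₀⟫ - q.2.1| ≤ w from (hY' x₀ hx₀).2.2)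
    rw [abs_le]
    rcases hσ with rfl | rfl <;> constructor <;> linarith [h3.1, h3.2, h4.1, h4.2, h5.1, h5.2]
  set ρ : ℝ := ⟪p.1, q.1⟫ with hρ
  set v : V n := q.1 - ρ • p.1 with hv
  have hsq : ∀ σ : ℝ, ‖p.1 - σ • q.1‖ ^ 2 = 1 - 2 * σ * ρ + σ ^ 2 := fun σ => by
    rw [norm_sub_sq_real, norm_smul, real_inner_smul_right, hp, hq, mul_one, Real.norm_eq_abs,
      sq_abs]; ring
  have hv2 : ‖v‖ ^ 2 = 1 - ρ ^ 2 := by
    rw [hv, norm_sub_sq_real, norm_smul, real_inner_smul_right, hp, hq, mul_one, Real.norm_eq_abs,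
      sq_abs, real_inner_comm]; ring
  have h1 : (th / 4) ^ 2 ≤ 2 - 2 * ρ := by
    have := pow_le_pow_left₀ (by positivity) (hfar 1 (Or.inl rfl)).le 2
    rw [hsq] at this; linarith
  have h2 : (th / 4) ^ 2 ≤ 2 + 2 * ρ := by
    have := pow_le_pow_left₀ (by positivity) (hfar (-1) (Or.inr rfl)).le 2
    rw [hsq] at this; linarith
  have hvth : th / 6 ≤ ‖v‖ := by
    refine le_of_sq_le_sq ?_ (norm_nonneg _)
    rw [hv2]
    rcases le_total 0 ρ with h | h <;> nlinarith [sq_nonneg th]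
  have hv0 : 0 < ‖v‖ := lt_of_lt_of_le (by positivity) hvth
  have hw0 : 0 ≤ w := (abs_nonneg _).trans (hY' x₀ hx₀).2.1
  have hρ1 : |ρ| ≤ 1 := by simpa [hp, hq] using abs_real_inner_le_norm p.1 q.1
  refine card_two_slabs Y hY hp (e' := ‖v‖⁻¹ • v) (by rw [norm_smul]; simp [hv0.ne'])
    ?_ (y := s * p.2.1) (y' := ‖v‖⁻¹ * (s * (q.2.1 - ρ * p.2.1))) hs (fun x hx => (hY' x hx).1)
    fun x hx => ?_
  · rw [real_inner_smul_right, hv, inner_sub_right, real_inner_smul_right,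
      real_inner_self_eq_norm_sq, hp]; ring
  · have e : ∀ (a : V n) (c : ℝ), ⟪a, x⟫ - s * c = s * (⟪a, s⁻¹ • x⟫ - c) := fun a c => by
      rw [real_inner_smul_right]; field_simp
    have h4 : |⟪p.1, x⟫ - s * p.2.1| ≤ w * s := by
      rw [e, abs_mul, abs_of_pos hs0, mul_comm]; gcongr; exact (hY' x hx).2.1
    have h5 : |⟪q.1, x⟫ - s * q.2.1| ≤ w * s := by
      rw [e, abs_mul, abs_of_pos hs0, mul_comm]; gcongr; exact (hY' x hx).2.2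
    refine ⟨h4.trans hw1, ?_⟩
    rw [real_inner_smul_left, ← mul_sub, abs_mul, abs_of_pos (inv_pos.2 hv0), inv_mul_le_iff₀ hv0]
    have e2 : ⟪v, x⟫ - s * (q.2.1 - ρ * p.2.1) =
        (⟪q.1, x⟫ - s * q.2.1) - ρ * (⟪p.1, x⟫ - s * p.2.1) := by
      rw [hv, inner_sub_left, real_inner_smul_left]; ring
    rw [e2]
    refine (abs_sub _ _).trans ?_
    have h7 : |ρ * (⟪p.1, x⟫ - s * p.2.1)| ≤ 1 * (w * s) := by rw [abs_mul]; gcongr
    linarith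

end Crest.Agent.N76.II.A
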